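import Vale.Agent.P027P.MinorA

/-! Geometric sums and the lemma of Vinogradov. -/

set_option linter.all false

namespace Vale.Agent.P027P.Mn

open Finset Real
open Vale.Agent.P013.J (e)

theorem four_le (β : ℝ) : 4 * |β - round β| ≤ ‖e β - 1‖ := by
  obtain ⟨t, ht⟩ : ∃ t, t = β - round β := ⟨_, rfl⟩
  have h0 : |t| ≤ 1 / 2 := ht ▸ abs_sub_round β
  have h1 : e β = Complex.exp (Complex.I * (2 * π * t : ℝ)) := by
    unfold e
    rw [Complex.exp_eq_exp_iff_exists_int]
    refine ⟨round β, ?_⟩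
    rw [ht]
    push_cast
    ring
  rw [← ht, h1, Complex.norm_exp_I_mul_ofReal_sub_one, Real.norm_eq_abs, abs_mul, abs_two]
  have h2 : 2 * π * t / 2 = π * t := by ring
  have h3 : |π * t| = π * |t| := by rw [abs_mul, abs_of_pos pi_pos]
  have h4 := Real.mul_abs_le_abs_sin (x := π * t) (by rw [h3]; nlinarith [pi_pos])
  rw [h3] at h4
  have h5 : 2 / π * (π * |t|) = 2 * |t| := by field_simp
  rw [h2]
  linarith

theorem tele (β : ℝ) {u v : ℕ} (h : u ≤ v) :
    (e β - 1) * ∑ m ∈ Ioc u v, e (m * β) = e ((v + 1 : ℕ) * β) - e ((u + 1 : ℕ) * β) := by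
  induction v, h using Nat.le_induction with
  | base => simp
  | succ v hv ih =>
    rw [sum_Ioc_succ_top hv, mul_add, ih]
    have : e ((v + 1 + 1 : ℕ) * β) = e β * e ((v + 1 : ℕ) * β) := by
      rw [← add_e]
      congr 1
      push_cast
      ring
    rw [this]
    ring

theorem kk_le_two {T : ℝ} (hT : 0 ≤ T) (β : ℝ) : kk T β ≤ 2 * T := by
  unfold kk
  exact div_le_self (by positivity) (le_add_of_nonneg_right (by positivity))

theorem kk_le_inv {T β δ : ℝ} (hT : 0 ≤ T) (hδ : 0 < δ) (h : δ ≤ |β - round β|) :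
    kk T β ≤ 1 / δ := by
  unfold kk
  rw [div_le_div_iff₀ (by positivity) hδ]
  nlinarith

theorem kk_mono {T T' : ℝ} (hT : 0 ≤ T) (h : T ≤ T') (β : ℝ) : kk T β ≤ kk T' β := by
  unfold kk
  have hT' := hT.trans h
  rw [div_le_div_iff₀ (by positivity) (by positivity)]
  nlinarith

theorem kk_far {T β : ℝ} {q : ℕ} (hT : 0 ≤ T) (hq : 1 ≤ q)
    (h : 1 / (2 * (q : ℝ)) ≤ |β - round β|) : kk T β ≤ 2 * kk q β := by
  have hq0 : (0 : ℝ) < q := by exact_mod_cast hq
  have hd : 0 < |β - round β| := lt_of_lt_of_le (by positivity) h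
  refine (kk_le_inv hT hd le_rfl).trans ?_
  unfold kk
  rw [div_le_iff₀ (by positivity)] at h
  rw [← mul_div_assoc, div_le_div_iff₀ hd (by positivity)]
  nlinarith

theorem sep {α : ℝ} {a : ℤ} {q : ℕ} (hq : 1 ≤ q) (hcop : IsCoprime a (q : ℤ))
    (hα : |α - a / q| ≤ 1 / (q : ℝ) ^ 2) {k : ℤ} (hk : k ≠ 0) (hkq : 2 * |k| ≤ q) (z : ℤ) :
    1 / (2 * (q : ℝ)) ≤ |k * α - z| := by
  have hq0 : (0 : ℝ) < q := by exact_mod_cast hq
  have h1 : k * a - z * q ≠ 0 := by
    intro h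
    have h2 : (q : ℤ) ∣ k * a := ⟨z, by linarith⟩
    have h3 := Int.le_of_dvd (abs_pos.2 hk) ((dvd_abs _ _).2 (hcop.symm.dvd_of_dvd_mul_right h2))
    have := abs_pos.2 hk
    omega
  have h2 : (1 : ℝ) ≤ |(k : ℝ) * a - z * q| := by exact_mod_cast Int.one_le_abs h1
  have h3 : 2 * |(k : ℝ)| ≤ q := by exact_mod_cast hkq
  have h4 : ((k : ℝ) * a - z * q) / q = (k * α - z) - k * (α - a / q) := by
    field_simp
    ring
  have h5 : 1 / (q : ℝ) ≤ |((k : ℝ) * a - z * q) / q| := by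
    rw [abs_div, abs_of_pos hq0]
    gcongr
  have h6 : |(k : ℝ) * (α - a / q)| ≤ 1 / (2 * (q : ℝ)) := by
    rw [abs_mul]
    calc _ ≤ (q : ℝ) / 2 * (1 / (q : ℝ) ^ 2) := by gcongr; linarith
      _ = _ := by field_simp
  have h7 := abs_sub ((k : ℝ) * α - z) (k * (α - a / q))
  have h8 : 1 / (q : ℝ) = 1 / (2 * (q : ℝ)) + 1 / (2 * (q : ℝ)) := by
    field_simp
    ring
  rw [h4] at h5
  linarith

/-- points on one side of the integers -/
theorem half {ι : Type*} {T : ℝ} {q : ℕ} (hT : 0 ≤ T) (hq : 1 ≤ q) (s : Finset ι) (x : ι → ℝ)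
    (hs : ∀ i ∈ s, ∀ j ∈ s, i ≠ j →
      1 / (2 * (q : ℝ)) ≤ |(|x i - round (x i)|) - (|x j - round (x j)|)|) :
    ∑ i ∈ s, kk T (x i) ≤ 2 * (T + q * (1 + Real.log q)) := by
  classical
  have hq1 : (1 : ℝ) ≤ q := by exact_mod_cast hq
  have hq0 : (0 : ℝ) < q := by linarith
  obtain ⟨J, hJ⟩ : ∃ J : ι → ℕ, ∀ i, J i = ⌊2 * q * |x i - round (x i)|⌋₊ := ⟨_, fun _ => rfl⟩
  obtain ⟨F, hF⟩ : ∃ F : ℕ → ℝ, ∀ j, F j = if j = 0 then 2 * T else 2 * q * (1 / j) :=
    ⟨_, fun _ => rfl⟩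
  have hF0 : ∀ j, 0 ≤ F j := fun j => by rw [hF]; split_ifs <;> positivity
  have hJ1 : ∀ i, (J i : ℝ) ≤ 2 * q * |x i - round (x i)| := fun i => by
    rw [hJ]; exact Nat.floor_le (by positivity)
  have hJ2 : ∀ i, 2 * q * |x i - round (x i)| < J i + 1 := fun i => by
    rw [hJ]; exact Nat.lt_floor_add_one _
  have h1 : ∀ i ∈ s, kk T (x i) ≤ F (J i) := by
    intro i _
    rw [hF]
    split_ifs with h
    · exact kk_le_two hT _
    · have h2 : (0 : ℝ) < J i := by exact_mod_cast Nat.pos_of_ne_zero h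
      refine (kk_le_inv (δ := J i / (2 * q)) hT (by positivity) ?_).trans (le_of_eq ?_)
      · rw [div_le_iff₀ (by positivity)]
        linarith [hJ1 i]
      · field_simp
  have hinj : Set.InjOn J s := by
    intro i hi j hj hij
    by_contra hne
    have h2 := hs i hi j hj hne
    have h3 := hJ1 i
    have h4 := hJ2 i
    have h5 := hJ1 j
    have h6 := hJ2 j
    rw [hij] at h3 h4
    rw [div_le_iff₀ (by positivity), ← abs_of_pos (show (0 : ℝ) < 2 * q by positivity),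
      ← abs_mul, le_abs] at h2
    rcases h2 with h2 | h2 <;> nlinarith
  have hsub : s.image J ⊆ insert 0 (Icc 1 q) := by
    intro j hj
    obtain ⟨i, -, rfl⟩ := mem_image.1 hj
    have h2 := hJ1 i
    have h3 := abs_sub_round (x i)
    have h4 : (J i : ℝ) ≤ q := by nlinarith
    have h5 : J i ≤ q := by exact_mod_cast h4
    rw [mem_insert, mem_Icc]
    omega
  have h7 := Vale.Agent.P013.J.BV.sum_inv_Icc_le q q hq1 le_rfl
  calc _ ≤ ∑ i ∈ s, F (J i) := sum_le_sum h1
    _ = ∑ j ∈ s.image J, F j := (sum_image hinj).symm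
    _ ≤ ∑ j ∈ insert 0 (Icc 1 q), F j := sum_le_sum_of_subset_of_nonneg hsub fun j _ _ => hF0 j
    _ = 2 * T + 2 * q * ∑ j ∈ Icc 1 q, 1 / (j : ℝ) := by
        rw [sum_insert (by simp), hF, if_pos rfl, mul_sum]
        congr 1
        refine sum_congr rfl fun j hj => ?_
        rw [hF, if_neg (by have := (mem_Icc.1 hj).1; omega)]
    _ ≤ _ := by nlinarith

/-- one short block -/
theorem blk {α : ℝ} {a : ℤ} {q : ℕ} (hq : 1 ≤ q) (hcop : IsCoprime a (q : ℤ))
    (hα : |α - a / q| ≤ 1 / (q : ℝ) ^ 2) {T : ℝ} (hT : 0 ≤ T) (h₀ : ℤ) (s : Finset ℕ) (j : ℕ)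
    (hs : ∀ h ∈ s, h / (q / 2 + 1) = j) :
    ∑ h ∈ s, kk T (((h₀ + h : ℤ) : ℝ) * α) ≤ 4 * (T + q * (1 + Real.log q)) := by
  classical
  obtain ⟨x, hx⟩ : ∃ x : ℕ → ℝ, ∀ h, x h = ((h₀ + h : ℤ) : ℝ) * α := ⟨_, fun _ => rfl⟩
  have key : ∀ i ∈ s, ∀ i' ∈ s, i ≠ i' →
      1 / (2 * (q : ℝ)) ≤ |(x i - round (x i)) - (x i' - round (x i'))| := by
    intro i hi i' hi' hne
    have h1 := hs i hi
    have h2 := hs i' hi'
    have h3 := Nat.div_add_mod i (q / 2 + 1)
    have h4 := Nat.div_add_mod i' (q / 2 + 1)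
    have h5 := Nat.mod_lt i (show 0 < q / 2 + 1 by omega)
    have h6 := Nat.mod_lt i' (show 0 < q / 2 + 1 by omega)
    rw [h1] at h3
    rw [h2] at h4
    have h7 := sep hq hcop hα (k := (i : ℤ) - i') (by omega)
      (by rcases abs_cases ((i : ℤ) - i') with h | h <;> omega) (round (x i) - round (x i'))
    refine h7.trans (le_of_eq ?_)
    congr 1
    generalize round (x i) = r
    generalize round (x i') = r'
    rw [hx, hx]
    push_cast
    ring
  simp only [← hx]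
  rw [← sum_filter_add_sum_filter_not s (fun h => 0 ≤ x h - round (x h))]
  have b1 := half hT hq (s.filter fun h => 0 ≤ x h - round (x h)) x fun i hi i' hi' hne => by
    rw [mem_filter] at hi hi'
    rw [abs_of_nonneg hi.2, abs_of_nonneg hi'.2]
    exact key i hi.1 i' hi'.1 hne
  have b2 := half hT hq (s.filter fun h => ¬ 0 ≤ x h - round (x h)) x fun i hi i' hi' hne => by
    rw [mem_filter, not_le] at hi hi'
    rw [abs_of_neg hi.2, abs_of_neg hi'.2, neg_sub_neg, abs_sub_comm]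
    exact key i hi.1 i' hi'.1 hne
  linarith

theorem nblk {q : ℕ} (hq : 1 ≤ q) (H : ℕ) :
    ((H / (q / 2 + 1) + 1 : ℕ) : ℝ) ≤ 2 * ((H : ℝ) / q) + 1 := by
  have hq0 : (0 : ℝ) < q := by exact_mod_cast hq
  have h1 : ((H / (q / 2 + 1) : ℕ) : ℝ) ≤ (H : ℝ) / (q / 2 + 1 : ℕ) := Nat.cast_div_le
  have h2 : (q : ℝ) ≤ 2 * (q / 2 + 1 : ℕ) := by exact_mod_cast (by omega : q ≤ 2 * (q / 2 + 1))
  have h3 : (H : ℝ) / (q / 2 + 1 : ℕ) ≤ 2 * ((H : ℝ) / q) := by
    rw [← mul_div_assoc, div_le_div_iff₀ (by positivity) hq0]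
    nlinarith [Nat.cast_nonneg (α := ℝ) H]
  rw [Nat.cast_add, Nat.cast_one]
  linarith

end Vale.Agent.P027P.Mn

namespace Vale.Agent.P027P

open Finset Real Mn
open Vale.Agent.P013.J (e)

theorem geo : Geo := by
  intro T β u v hT hT0
  rcases le_or_gt u v with h | h
  · have h1 : ‖∑ m ∈ Ioc u v, e (m * β)‖ ≤ T := by
      refine (norm_sum_le _ _).trans ?_
      simp only [nrm_e, sum_const, Nat.card_Ioc, nsmul_eq_mul, mul_one]
      rwa [Nat.cast_sub h]
    have h2 : ‖e β - 1‖ * ‖∑ m ∈ Ioc u v, e (m * β)‖ ≤ 2 := by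
      rw [← norm_mul, tele β h]
      refine (norm_sub_le _ _).trans ?_
      rw [nrm_e, nrm_e]
      norm_num
    have h3 := mul_le_mul_of_nonneg_right (four_le β) (norm_nonneg (∑ m ∈ Ioc u v, e (m * β)))
    have h4 := mul_le_mul_of_nonneg_left (h3.trans h2) hT0
    unfold kk
    rw [le_div_iff₀ (by positivity)]
    linarith
  · rw [Ioc_eq_empty (by omega), sum_empty, norm_zero]
    exact kk_nonneg hT0 β

theorem vinoB : VinoB := by
  refine ⟨8, by norm_num, fun T α h₀ a H q hT hq hcop hα => ?_⟩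
  have hl := Real.log_natCast_nonneg q
  rw [← sum_fiberwise_of_maps_to (t := range (H / (q / 2 + 1) + 1))
    (g := fun h => h / (q / 2 + 1))
    (fun h hh => mem_range.2 (Nat.lt_succ_of_le (Nat.div_le_div_right (mem_range.1 hh).le)))]
  refine (sum_le_card_nsmul _ _ _ fun j _ =>
    blk hq hcop hα hT h₀ _ j fun h hh => (mem_filter.1 hh).2).trans ?_
  rw [card_range, nsmul_eq_mul]
  have h1 := nblk hq H
  calc _ ≤ (2 * ((H : ℝ) / q + 1)) * (4 * (T + q * (1 + Real.log q))) := by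
        gcongr
        linarith
    _ = _ := by ring

theorem vino : Vino := by
  refine ⟨192, by norm_num, fun α a N D q hN hD hq hqN hcop hα => ?_⟩
  have hl := Real.log_natCast_nonneg q
  have hq0 : (0 : ℝ) < q := by exact_mod_cast hq
  have hN1 : (1 : ℝ) ≤ N := by exact_mod_cast (by omega : 1 ≤ N)
  have hb : ∀ j : ℕ, ∑ d ∈ (Icc 1 D).filter (fun d => d / (q / 2 + 1) = j),
      kk ((N : ℝ) / d) (d * α) ≤ 8 * ((N : ℝ) / q) * (1 / j) + 16 * (q * (1 + Real.log q)) := by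
    intro j
    rcases Nat.eq_zero_or_pos j with rfl | hj
    · have h1 := blk hq hcop hα hq0.le 0 ((Icc 1 D).filter (fun d => d / (q / 2 + 1) = 0)) 0
        fun h hh => (mem_filter.1 hh).2
      simp only [zero_add, Int.cast_natCast] at h1
      refine (sum_le_sum (g := fun d : ℕ => 2 * kk q (d * α)) fun d hd => ?_).trans ?_
      · rw [mem_filter, mem_Icc, Nat.div_eq_zero_iff] at hd
        have h2 := sep hq hcop hα (k := d) (by omega)
          (by rw [Nat.abs_cast]; omega) (round ((d : ℝ) * α))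
        rw [Int.cast_natCast] at h2
        exact kk_far (by positivity) hq h2
      · rw [← mul_sum]
        simp only [Nat.cast_zero, div_zero, mul_zero, zero_add]
        nlinarith
    · have hj0 : (0 : ℝ) < j := by exact_mod_cast hj
      have h1 := blk hq hcop hα (T := 2 * ((N : ℝ) / q) * (1 / j)) (by positivity) 0
        ((Icc 1 D).filter (fun d => d / (q / 2 + 1) = j)) j fun h hh => (mem_filter.1 hh).2
      simp only [zero_add, Int.cast_natCast] at h1
      refine (sum_le_sum fun d hd => kk_mono (by positivity) ?_ _).trans (h1.trans ?_)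
      · rw [mem_filter, mem_Icc] at hd
        have h2 := Nat.div_mul_le_self d (q / 2 + 1)
        rw [hd.2] at h2
        have h3 : j * q ≤ 2 * d := by
          calc j * q ≤ j * (2 * (q / 2 + 1)) := Nat.mul_le_mul_left j (by omega)
            _ = 2 * (j * (q / 2 + 1)) := by ring
            _ ≤ 2 * d := by omega
        have h4 : (j : ℝ) * q ≤ 2 * d := by exact_mod_cast h3
        have h5 : (0 : ℝ) < d := by exact_mod_cast hd.1.1
        have h6 : 2 * ((N : ℝ) / q) * (1 / j) = 2 * N / (j * q) := by field_simp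
        rw [h6, div_le_div_iff₀ h5 (by positivity)]
        nlinarith
      · have : 0 ≤ (q : ℝ) * (1 + Real.log q) := by positivity
        linarith
  rw [← sum_fiberwise_of_maps_to (t := range (D / (q / 2 + 1) + 1))
    (g := fun h => h / (q / 2 + 1))
    (fun h hh => mem_range.2 (Nat.lt_succ_of_le (Nat.div_le_div_right (mem_Icc.1 hh).2)))]
  refine (sum_le_sum fun j _ => hb j).trans ?_
  rw [sum_add_distrib, sum_const, card_range, nsmul_eq_mul, ← mul_sum]
  obtain ⟨L, hL⟩ : ∃ L, L = Real.log N := ⟨_, rfl⟩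
  have hL2 : 1 / 2 ≤ L := by
    have h1 := Real.log_two_gt_d9
    have h2 : Real.log 2 ≤ Real.log N := Real.log_le_log two_pos (by exact_mod_cast hN)
    linarith
  have hlq : Real.log q ≤ L := hL ▸ Real.log_le_log hq0 (by exact_mod_cast hqN)
  have h1 : ∑ j ∈ range (D / (q / 2 + 1) + 1), 1 / (j : ℝ) ≤ 3 * L := by
    have h2 := Vale.Agent.P013.J.BV.sum_inv_Icc_le N N hN1 le_rfl
    have h3 : range (D / (q / 2 + 1) + 1) ⊆ insert 0 (Icc 1 N) := by
      intro j hj
      have := Nat.div_le_self D (q / 2 + 1)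
      rw [mem_range] at hj
      rw [mem_insert, mem_Icc]
      omega
    refine (sum_le_sum_of_subset_of_nonneg h3 fun j _ _ => by positivity).trans ?_
    rw [sum_insert (by simp)]
    simp only [Nat.cast_zero, div_zero, zero_add]
    linarith
  have h2 := nblk hq D
  have h3 : (2 * ((D : ℝ) / q) + 1) * (16 * (q * (3 * L))) = 48 * L * (2 * D + q) := by
    field_simp
    ring
  rw [← hL]
  have hD0 : (0 : ℝ) ≤ D := Nat.cast_nonneg D
  have hNq : 0 ≤ (N : ℝ) / q := by positivity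
  calc _ ≤ 8 * ((N : ℝ) / q) * (3 * L) + (2 * ((D : ℝ) / q) + 1) * (16 * (q * (3 * L))) := by
        gcongr
        linarith
    _ ≤ 96 * ((N : ℝ) / q + D + q) * L * 1 := by
        rw [h3]
        nlinarith [mul_nonneg hNq (by linarith : 0 ≤ L), mul_nonneg hq0.le (by linarith : 0 ≤ L)]
    _ ≤ 96 * ((N : ℝ) / q + D + q) * L * (2 * L) := by gcongr; linarith
    _ = _ := by ring

end Vale.Agent.P027P
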