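import Vale.Agent.P027P.Minor
import Vale.Agent.P027P.Vino

/-! The estimate of Vinogradov and Vaughan, unconditional. -/

namespace Vale.Agent.P027P

theorem minor : Minor := minor_of geo vinoB vino

end Vale.Agent.P027P
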