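import Vale.Agent.P027P.Iface

/-! The generalised von Neumann inequality for systems of complexity one. -/

set_option linter.all false

namespace Vale.Agent.P027P

open Finset Real
open Vale.Agent.P013.J (e)

section
variable {M : ℕ} [Fact M.Prime]

lemma vn_orth (b : ZMod M) :
    ∑ ξ : ZMod M, (ZMod.stdAddChar (ξ * b) : ℂ) = if b = 0 then (M : ℂ) else 0 := by
  rw [AddChar.sum_mulShift b (ZMod.isPrimitive_stdAddChar M), ZMod.card]
  split_ifs <;> simp

lemma vn_e (y ξ : ZMod M) : e ((y.val : ℝ) * ((ξ.val : ℝ) / M)) = ZMod.stdAddChar (y * ξ) := by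
  have h : y * ξ = ((y.val * ξ.val : ℤ) : ZMod M) := by simp
  rw [h, ZMod.stdAddChar_coe, e]
  congr 1
  push_cast
  ring

lemma vn_norm (y : ZMod M) : ‖(ZMod.stdAddChar y : ℂ)‖ = 1 := by
  rw [ZMod.stdAddChar_apply]; exact Circle.norm_coe _

lemma vn_conj (y : ZMod M) :
    (starRingEnd ℂ) (ZMod.stdAddChar y : ℂ) = ZMod.stdAddChar (-y) := by
  rw [AddChar.map_neg_eq_inv, Complex.inv_eq_conj (vn_norm y)]

lemma vn_parseval (G : ZMod M → ℂ) {a : ZMod M} (ha : a ≠ 0) {A : ℝ} (hG : ∀ s, ‖G s‖ ≤ A) :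
    ∑ ξ : ZMod M, ‖∑ s, G s * ZMod.stdAddChar (ξ * (a * s))‖ ^ 2 ≤ ((M : ℝ) * A) ^ 2 := by
  have h1 : ((∑ ξ : ZMod M, ‖∑ s, G s * ZMod.stdAddChar (ξ * (a * s))‖ ^ 2 : ℝ) : ℂ) =
      ((M * ∑ s, ‖G s‖ ^ 2 : ℝ) : ℂ) := by
    push_cast
    simp only [← Complex.mul_conj', map_sum, map_mul, vn_conj, sum_mul_sum]
    rw [sum_comm, mul_sum]
    refine sum_congr rfl fun s _ => ?_
    rw [sum_comm]
    have : ∀ t : ZMod M, ∑ ξ : ZMod M, G s * ZMod.stdAddChar (ξ * (a * s)) *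
        ((starRingEnd ℂ) (G t) * ZMod.stdAddChar (-(ξ * (a * t)))) =
        if s = t then (M : ℂ) * (G s * (starRingEnd ℂ) (G t)) else 0 := by
      intro t
      have e1 : ∀ ξ : ZMod M, G s * ZMod.stdAddChar (ξ * (a * s)) *
          ((starRingEnd ℂ) (G t) * ZMod.stdAddChar (-(ξ * (a * t)))) =
          (G s * (starRingEnd ℂ) (G t)) * ZMod.stdAddChar (ξ * (a * (s - t))) := by
        intro ξ
        have : ξ * (a * (s - t)) = ξ * (a * s) + -(ξ * (a * t)) := by ring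
        rw [this, AddChar.map_add_eq_mul]; ring
      simp only [e1, ← mul_sum, vn_orth, mul_eq_zero, ha, false_or, sub_eq_zero]
      split_ifs <;> ring
    simp only [this, sum_ite_eq, mem_univ, if_true]
  rw [Complex.ofReal_inj.1 h1]
  have h2 : ∑ s, ‖G s‖ ^ 2 ≤ (M : ℝ) * A ^ 2 := by
    have := sum_le_card_nsmul univ (fun s => ‖G s‖ ^ 2) (A ^ 2)
      (fun s _ => pow_le_pow_left₀ (norm_nonneg _) (hG s) 2)
    rwa [card_univ, ZMod.card, nsmul_eq_mul] at this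
  calc (M : ℝ) * ∑ s, ‖G s‖ ^ 2 ≤ M * (M * A ^ 2) := by gcongr
    _ = _ := by ring

lemma vn_bilin (f G H : ZMod M → ℂ) {a b : ZMod M} (c : ZMod M) (ha : a ≠ 0) (hb : b ≠ 0)
    {η A A' : ℝ} (hf : ∀ ξ : ZMod M, ‖∑ y, f y * ZMod.stdAddChar (y * ξ)‖ ≤ η)
    (hG : ∀ s, ‖G s‖ ≤ A) (hH : ∀ s, ‖H s‖ ≤ A') :
    ‖∑ s, ∑ u, f (c + s * a + u * b) * (G s * H u)‖ ≤ η * M * (A * A') := by
  have hM : (0 : ℝ) < M := Nat.cast_pos.2 (Fact.out : M.Prime).pos
  have hη : 0 ≤ η := le_trans (norm_nonneg _) (hf 0)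
  have hA : 0 ≤ A := le_trans (norm_nonneg _) (hG 0)
  have hA' : 0 ≤ A' := le_trans (norm_nonneg _) (hH 0)
  have inv : ∀ z : ZMod M, (M : ℂ) * f z =
      ∑ ξ : ZMod M, (∑ y, f y * ZMod.stdAddChar (y * ξ)) * ZMod.stdAddChar (ξ * -z) := by
    intro z
    simp only [sum_mul]
    rw [sum_comm]
    have : ∀ y : ZMod M, ∑ ξ : ZMod M, f y * ZMod.stdAddChar (y * ξ) * ZMod.stdAddChar (ξ * -z) =
        if y = z then (M : ℂ) * f y else 0 := by
      intro y
      have e1 : ∀ ξ : ZMod M, f y * ZMod.stdAddChar (y * ξ) * ZMod.stdAddChar (ξ * -z) =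
          f y * ZMod.stdAddChar (ξ * (y - z)) := by
        intro ξ
        have : ξ * (y - z) = y * ξ + ξ * -z := by ring
        rw [this, AddChar.map_add_eq_mul]; ring
      simp only [e1, ← mul_sum, vn_orth, sub_eq_zero]
      split_ifs <;> ring
    simp only [this, sum_ite_eq', mem_univ, if_true]
  have key : (M : ℂ) * ∑ s, ∑ u, f (c + s * a + u * b) * (G s * H u) =
      ∑ ξ : ZMod M, ((∑ y, f y * ZMod.stdAddChar (y * ξ)) * ZMod.stdAddChar (ξ * -c)) *
        ((∑ s, G s * ZMod.stdAddChar (ξ * (-a * s))) * ∑ u, H u * ZMod.stdAddChar (ξ * (-b * u))) := by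
    obtain ⟨F, hF⟩ : ∃ F : ZMod M → ℂ, ∀ ξ, ∑ y, f y * ZMod.stdAddChar (y * ξ) = F ξ := ⟨_, fun _ => rfl⟩
    simp only [hF] at inv ⊢
    have e1 : ∀ s u, (M : ℂ) * (f (c + s * a + u * b) * (G s * H u)) =
        ∑ ξ : ZMod M, (F ξ * ZMod.stdAddChar (ξ * -c)) * ((G s * ZMod.stdAddChar (ξ * (-a * s))) *
          (H u * ZMod.stdAddChar (ξ * (-b * u)))) := by
      intro s u
      rw [← mul_assoc, inv, sum_mul]
      refine sum_congr rfl fun ξ _ => ?_
      have : ξ * -(c + s * a + u * b) = ξ * -c + ξ * (-a * s) + ξ * (-b * u) := by ring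
      rw [this, AddChar.map_add_eq_mul, AddChar.map_add_eq_mul]; ring
    simp only [sum_mul_sum]
    simp only [mul_sum, e1]
    symm
    rw [sum_comm]
    refine sum_congr rfl fun s _ => ?_
    rw [sum_comm]
  have cs : ∑ ξ : ZMod M, ‖∑ s, G s * ZMod.stdAddChar (ξ * (-a * s))‖ *
      ‖∑ u, H u * ZMod.stdAddChar (ξ * (-b * u))‖ ≤ (M * A) * (M * A') := by
    refine (pow_le_pow_iff_left₀ (sum_nonneg fun _ _ => by positivity) (by positivity) two_ne_zero).1 ?_
    refine le_trans (sum_mul_sq_le_sq_mul_sq _ _ _) ?_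
    rw [mul_pow]
    exact mul_le_mul (vn_parseval G (neg_ne_zero.2 ha) hG) (vn_parseval H (neg_ne_zero.2 hb) hH)
      (sum_nonneg fun _ _ => sq_nonneg _) (sq_nonneg _)
  have h3 : (M : ℝ) * ‖∑ s, ∑ u, f (c + s * a + u * b) * (G s * H u)‖ ≤
      η * ((M * A) * (M * A')) := by
    rw [← Complex.norm_natCast, ← norm_mul, key, Complex.norm_natCast]
    refine le_trans (norm_sum_le _ _) (le_trans ?_ (mul_le_mul_of_nonneg_left cs hη))
    rw [mul_sum]
    refine sum_le_sum fun ξ _ => ?_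
    rw [norm_mul, norm_mul, norm_mul, vn_norm, mul_one]
    exact mul_le_mul_of_nonneg_right (hf ξ) (by positivity)
  refine le_of_mul_le_mul_left (le_trans h3 (le_of_eq ?_)) hM
  ring

end

theorem vn : VN := by
  intro M _ V ι _ _ _ _ _ ψ f i h₁ h₂ η B hB a₁ a₂ hψ hf hη
  have hM : (0 : ℝ) < M := Nat.cast_pos.2 (Fact.out : M.Prime).pos
  simp only [vn_e] at hη
  set S₁ := (univ.erase i).filter fun j => ψ j h₂ = 0 with hS₁
  set S₂ := (univ.erase i).filter fun j => ¬ ψ j h₂ = 0 with hS₂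
  have hcard : S₁.card + S₂.card = Fintype.card ι - 1 := by
    rw [hS₁, hS₂, card_filter_add_card_filter_not, card_erase_of_mem (mem_univ i), card_univ]
  have shift : ((M : ℂ) * M) * ∑ x : V, ∏ j, f j (ψ j x) =
      ∑ x : V, ∑ s : ZMod M, ∑ u : ZMod M, ∏ j, f j (ψ j (x + (s • h₁ + u • h₂))) := by
    rw [sum_comm]
    have : ∀ s : ZMod M, ∑ x : V, ∑ u : ZMod M, ∏ j, f j (ψ j (x + (s • h₁ + u • h₂))) =
        M * ∑ x : V, ∏ j, f j (ψ j x) := by
      intro s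
      rw [sum_comm]
      have : ∀ u : ZMod M, ∑ x : V, ∏ j, f j (ψ j (x + (s • h₁ + u • h₂))) =
          ∑ x : V, ∏ j, f j (ψ j x) := fun u =>
        Fintype.sum_equiv (Equiv.addRight (s • h₁ + u • h₂)) _ _ fun _ => rfl
      simp only [this, sum_const, card_univ, ZMod.card, nsmul_eq_mul]
    simp only [this, sum_const, card_univ, ZMod.card, nsmul_eq_mul, mul_assoc]
  have inner : ∀ x : V, ‖∑ s : ZMod M, ∑ u : ZMod M, ∏ j, f j (ψ j (x + (s • h₁ + u • h₂)))‖ ≤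
      η * M * B ^ (Fintype.card ι - 1) := by
    intro x
    have bd : ∀ (S : Finset ι), (∀ j ∈ S, j ≠ i) → ∀ y : ι → ZMod M,
        ‖∏ j ∈ S, f j (y j)‖ ≤ B ^ S.card := by
      intro S hS y
      rw [norm_prod]
      calc ∏ j ∈ S, ‖f j (y j)‖ ≤ ∏ j ∈ S, B :=
            prod_le_prod (fun _ _ => norm_nonneg _) fun j hj => hf j (hS j hj) _
        _ = B ^ S.card := prod_const B
    have := vn_bilin (f i) (fun s => ∏ j ∈ S₁, f j (ψ j x + s * ψ j h₁))
      (fun u => ∏ j ∈ S₂, f j (ψ j x + u * ψ j h₂)) (ψ i x) a₁ a₂ hη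
      (fun s => bd S₁ (fun j hj => ne_of_mem_erase (mem_filter.1 hj).1) _)
      (fun s => bd S₂ (fun j hj => ne_of_mem_erase (mem_filter.1 hj).1) _)
    rw [← pow_add, hcard] at this
    convert this using 4 with s _ u _
    rw [← mul_prod_erase univ _ (mem_univ i),
      ← prod_filter_mul_prod_filter_not (univ.erase i) (fun j => ψ j h₂ = 0)]
    congr 1
    · simp only [map_add, map_smul, smul_eq_mul, add_assoc]
    congr 1
    · refine prod_congr rfl fun j hj => ?_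
      simp only [map_add, map_smul, smul_eq_mul, (mem_filter.1 hj).2, mul_zero, add_zero]
    · refine prod_congr rfl fun j hj => ?_
      have h0 := (hψ j (ne_of_mem_erase (mem_filter.1 hj).1)).resolve_right (mem_filter.1 hj).2
      simp only [map_add, map_smul, smul_eq_mul, h0, mul_zero, zero_add]
  have h3 : ((M : ℝ) * M) * ‖∑ x : V, ∏ j, f j (ψ j x)‖ ≤
      Fintype.card V * (η * M * B ^ (Fintype.card ι - 1)) := by
    have := congrArg norm shift
    rw [norm_mul, norm_mul, Complex.norm_natCast] at this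
    rw [this]
    refine le_trans (norm_sum_le _ _) ?_
    have := sum_le_card_nsmul univ _ _ (fun x _ => inner x)
    rwa [card_univ, nsmul_eq_mul] at this
  refine le_of_mul_le_mul_left (le_trans h3 (le_of_eq ?_)) (mul_pos hM hM)
  field_simp

end Vale.Agent.P027P
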