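import Vale.Agent.P027P.Main
import Vale.Agent.P027P.MinorFin
import Vale.Agent.P027P.VN

/-! Prime values of systems of complexity one without local obstruction. -/

set_option linter.all false

namespace Vale.Agent.P027P

open Finset

lemma ext_mod {ι κ : Type} [Fintype κ] (A : ι → κ → ℕ) (m : ℕ) (hm : 0 < m) (r : κ → ℕ)
    (hr : ∀ j, (fm A j r).Coprime m)
    (hloc : ∀ p : ℕ, p.Prime → ¬ p ∣ m → ∃ x : κ → ℕ, ∀ j, ¬ p ∣ fm A j x) (W : ℕ) :
    ∃ (m' : ℕ) (r' : κ → ℕ), 0 < m' ∧ m ∣ m' ∧ (∀ k, r' k ≡ r k [MOD m]) ∧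
      (∀ j, (fm A j r').Coprime m') ∧ ∀ p : ℕ, p.Prime → p < W → p ∣ m' := by
  induction W with
  | zero => exact ⟨m, r, hm, dvd_rfl, fun k => Nat.ModEq.refl _, hr, fun p _ h => by omega⟩
  | succ W ih =>
    obtain ⟨m', r', h1, h2, h3, h4, h5⟩ := ih
    by_cases hW : W.Prime ∧ ¬ W ∣ m'
    · obtain ⟨x, hx⟩ := hloc W hW.1 fun h => hW.2 (h.trans h2)
      have hc : m'.Coprime W := ((Nat.Prime.coprime_iff_not_dvd hW.1).2 hW.2).symm
      refine ⟨m' * W, fun k => Nat.chineseRemainder hc (r' k) (x k), Nat.mul_pos h1 hW.1.pos,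
        h2.mul_right W, fun k => ((Nat.chineseRemainder hc (r' k) (x k)).2.1.of_dvd h2).trans
          (h3 k), fun j => Nat.Coprime.mul_right ?_ ?_, fun p hp hpW => ?_⟩
      · have := fm_modEq A j (fun k => Nat.chineseRemainder hc (r' k) (x k)) r' m'
          fun k => (Nat.chineseRemainder hc (r' k) (x k)).2.1
        unfold Nat.Coprime
        rw [this.gcd_eq]; exact h4 j
      · have := fm_modEq A j (fun k => Nat.chineseRemainder hc (r' k) (x k)) x W
          fun k => (Nat.chineseRemainder hc (r' k) (x k)).2.2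
        unfold Nat.Coprime
        rw [this.gcd_eq]; exact ((Nat.Prime.coprime_iff_not_dvd hW.1).2 (hx j)).symm
      · rcases Nat.lt_succ_iff_lt_or_eq.1 hpW with h | h
        · exact (h5 p hp h).mul_right W
        · rw [h]; exact Dvd.intro_left _ rfl
    · refine ⟨m', r', h1, h2, h3, h4, fun p hp hpW => ?_⟩
      rcases Nat.lt_succ_iff_lt_or_eq.1 hpW with h | h
      · exact h5 p hp h
      · subst h
        by_contra h'
        exact hW ⟨hp, h'⟩

theorem pattern {ι κ : Type} [Fintype ι] [Fintype κ] [DecidableEq ι]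
    [DecidableEq κ] (A : ι → κ → ℕ) (hvar : ∀ k, ∃ j, ∀ k', A j k' = if k' = k then 1 else 0)
    (hcx : ∀ i, ∃ h₁ h₂ : κ → ℤ, fz A i h₁ ≠ 0 ∧ fz A i h₂ ≠ 0 ∧
      ∀ j, j ≠ i → fz A j h₁ = 0 ∨ fz A j h₂ = 0)
    (m : ℕ) (hm : 0 < m) (r : κ → ℕ) (hr : ∀ j, (fm A j r).Coprime m)
    (hloc : ∀ p : ℕ, p.Prime → ¬ p ∣ m → ∃ x : κ → ℕ, ∀ j, ¬ p ∣ fm A j x) (X : ℕ) :
    ∃ x : κ → ℕ, (∀ k, x k ≡ r k [MOD m]) ∧ ∀ j, (fm A j x).Prime ∧ X < fm A j x := by
  obtain ⟨m', r', h1, h2, h3, h4, h5⟩ := ext_mod A m hm r hr hloc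
    (2 * Fintype.card ι + ∑ j, fm A j 1 + X + 3)
  have hpos : ∀ j, 0 < fm A j 1 := by
    intro j
    by_contra h0
    have a1 : fm A j 1 = 0 := by omega
    have a2 := fm_le A j r' (∑ k, r' k) fun k =>
      Finset.single_le_sum (f := r') (fun _ _ => Nat.zero_le _) (mem_univ k)
    rw [a1, zero_mul] at a2
    have a3 := h4 j
    rw [Nat.le_zero.1 a2, Nat.coprime_zero_left] at a3
    have := h5 2 Nat.prime_two (by omega)
    rw [a3] at this
    omega
  obtain ⟨x, hx1, hx2⟩ := core (fourier_of geo vino minor) vn A hvar hcx m' h1 r' h4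
    (fun p hp hpm => by
      have a1 : 2 * Fintype.card ι + ∑ j, fm A j 1 + X + 3 ≤ p := by
        by_contra h; exact hpm (h5 p hp (by omega))
      refine ⟨by omega, fun j h => ?_⟩
      have a2 := Nat.le_of_dvd (hpos j) h
      have a3 := Finset.single_le_sum (f := fun j => fm A j 1) (fun _ _ => Nat.zero_le _)
        (mem_univ j)
      omega)
  refine ⟨x, fun k => ((hx1 k).of_dvd h2).trans (h3 k), fun j => ⟨hx2 j, ?_⟩⟩
  by_contra h
  have a1 := h5 _ (hx2 j) (by omega)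
  have a2 : (fm A j x).Coprime m' := by
    unfold Nat.Coprime
    rw [(fm_modEq A j x r' m' hx1).gcd_eq]; exact h4 j
  exact (hx2 j).one_lt.ne' (Nat.eq_one_of_dvd_coprimes a2 dvd_rfl a1)

end Vale.Agent.P027P
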