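import Vale.Agent.P027P.Asym

/-! The primes and the model in progressions with a small modulus. -/

set_option linter.all false

namespace Vale.Agent.P027P

open Finset Real Filter ArithmeticFunction

/-- expected main term -/
noncomputable def mt (x q c : ℕ) : ℝ := if c.Coprime q then (x : ℝ) / Nat.totient q else 0

lemma th_nonneg (n : ℕ) : 0 ≤ th n := by
  unfold th; split_ifs
  · exact Real.log_natCast_nonneg n
  · exact le_rfl

lemma th_le {n N : ℕ} (h : n ≤ N) : th n ≤ Real.log N := by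
  unfold th; split_ifs with hp
  · exact Real.log_le_log (by exact_mod_cast hp.pos) (by exact_mod_cast h)
  · exact Real.log_natCast_nonneg N

lemma th_le_lam (n : ℕ) : th n ≤ vonMangoldt n := by
  unfold th; split_ifs with hp
  · rw [vonMangoldt_apply_prime hp]
  · exact vonMangoldt_nonneg

lemma sum_lam_sub (N : ℕ) (hN : 1 ≤ N) :
    ∑ n ∈ Icc 1 N, (vonMangoldt n - th n) ≤ 2 * √N * Real.log N := by
  have h := Chebyshev.psi_sub_theta_le (x := N) (by exact_mod_cast hN)
  unfold Chebyshev.psi Chebyshev.theta at h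
  rw [Nat.floor_natCast, Finset.sum_filter] at h
  rw [Finset.sum_sub_distrib]
  exact h

lemma md_nonneg (z n : ℕ) : 0 ≤ md z n := by
  unfold md; split_ifs
  · linarith [one_le_wt z]
  · exact le_rfl

lemma md_le (z n : ℕ) : md z n ≤ wt z := by
  unfold md; split_ifs
  · exact le_rfl
  · linarith [one_le_wt z]

lemma sqrt_le_self {N : ℕ} (hN : 1 ≤ N) : √(N : ℝ) ≤ N := by
  have : (1 : ℝ) ≤ N := by exact_mod_cast hN
  rw [Real.sqrt_le_left (by linarith)]; nlinarith

lemma ev_D (C : ℕ) : ∀ᶠ N : ℕ in atTop, √(N : ℝ) ≤ N / Real.log N ^ C := by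
  filter_upwards [ev_sqrt 1 C, ev_ge 1] with N h h1
  rw [le_div_iff₀ (by positivity)]
  calc √(N : ℝ) * Real.log N ^ C ≤ √N * √N := by gcongr; linarith
    _ = N := Real.mul_self_sqrt (Nat.cast_nonneg N)

lemma tap (B C : ℕ) : ∀ᶠ N : ℕ in atTop, ∀ x q c : ℕ, x ≤ N + 1 → 1 ≤ q → q ≤ zz B N → c < q →
    |∑ n ∈ (range x).filter (fun n => n % q = c), th n - mt x q c| ≤ N / Real.log N ^ C := by
  obtain ⟨x₀, hsw⟩ := Vale.Agent.P013.J.sw ((2 * B + 2 * (C + 2) : ℕ) : ℝ) (by positivity)
  have hs : Tendsto (fun N : ℕ => √(N : ℝ)) atTop atTop :=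
    Real.tendsto_sqrt_atTop.comp tendsto_natCast_atTop_atTop
  filter_upwards [ev_D (C + 2), ev_ge 6, eventually_ge_atTop 1, hs.eventually_ge_atTop x₀] with
    N hD h6 hN hx₀
  intro x q c hx hq hqz hc
  set L := Real.log N with hL
  set D := (N : ℝ) / L ^ (C + 2) with hDdef
  have hN1 : (1 : ℝ) ≤ N := by exact_mod_cast hN
  have hs1 : (1 : ℝ) ≤ √N := Real.one_le_sqrt.2 hN1
  have hD1 : 1 ≤ D := hs1.trans hD
  have hgoal : (N : ℝ) / L ^ C = D * L ^ 2 := by
    rw [hDdef, pow_add]; field_simp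
  rw [hgoal]
  have hφ : (1 : ℝ) ≤ Nat.totient q := by exact_mod_cast Nat.totient_pos.2 hq
  have hsum0 : 0 ≤ ∑ n ∈ (range x).filter (fun n => n % q = c), th n :=
    Finset.sum_nonneg fun n _ => th_nonneg n
  unfold mt
  split_ifs with hcop
  · by_cases hsm : (x : ℝ) ≤ √N + 1
    · have h1 : ∑ n ∈ (range x).filter (fun n => n % q = c), th n ≤ x * L := by
        calc _ ≤ ∑ n ∈ range x, th n := Finset.sum_le_sum_of_subset_of_nonneg
              (Finset.filter_subset _ _) fun n _ _ => th_nonneg n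
          _ ≤ ∑ n ∈ range x, L := Finset.sum_le_sum fun n hn =>
              th_le (by have := Finset.mem_range.1 hn; omega)
          _ = x * L := by simp
      have h2 : (x : ℝ) / Nat.totient q ≤ x := div_le_self (Nat.cast_nonneg x) hφ
      have h3 : (0 : ℝ) ≤ x / Nat.totient q := by positivity
      have h4 : (x : ℝ) ≤ 2 * D := by linarith
      have h5 : (x : ℝ) * L ≤ 2 * D * L := by gcongr
      rw [abs_le]; constructor <;> nlinarith
    · push Not at hsm
      have hx1 : 1 ≤ x := by
        have : (0 : ℝ) < x := by linarith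
        exact_mod_cast this
      obtain ⟨y, rfl⟩ : ∃ y, x = y + 1 := ⟨x - 1, by omega⟩
      have hy : √(N : ℝ) ≤ y := by push_cast at hsm; linarith
      have hyN : y ≤ N := by omega
      have hy0 : (0 : ℝ) < y := by linarith
      have hly : L / 2 ≤ Real.log y := by
        have := Real.log_le_log (by linarith) hy
        rwa [Real.log_sqrt (by linarith)] at this
      have hL2 : L ≤ Real.log y ^ 2 := by nlinarith
      have hl1 : 1 ≤ Real.log y := by linarith
      have hqL : (q : ℝ) ≤ Real.log y ^ ((2 * B + 2 * (C + 2) : ℕ) : ℝ) := by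
        rw [Real.rpow_natCast]
        calc (q : ℝ) ≤ zz B N := by exact_mod_cast hqz
          _ ≤ L ^ B := zz_le B N
          _ ≤ (Real.log y ^ 2) ^ B := by gcongr
          _ ≤ _ := by rw [← pow_mul]; exact pow_le_pow_right₀ hl1 (by omega)
      have h1 := hsw y (hx₀.trans hy) q c hq hqL hcop
      have h2 : (y : ℝ) / Real.log y ^ ((2 * B + 2 * (C + 2) : ℕ) : ℝ) ≤ D := by
        rw [Real.rpow_natCast, hDdef]
        refine div_le_div₀ (by linarith) (by exact_mod_cast hyN) (by positivity) ?_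
        calc L ^ (C + 2) ≤ (Real.log y ^ 2) ^ (C + 2) := by gcongr
          _ ≤ _ := by rw [← pow_mul]; exact pow_le_pow_right₀ hl1 (by omega)
      have h3 : ∑ n ∈ (range (y + 1)).filter (fun n => n % q = c), th n =
          ∑ n ∈ (Icc 1 y).filter (fun n => n ≡ c [MOD q]), th n := by
        symm
        refine Finset.sum_subset ?_ ?_
        · intro n hn
          simp only [mem_filter, mem_Icc, mem_range, Nat.ModEq, Nat.mod_eq_of_lt hc] at hn ⊢
          exact ⟨by omega, hn.2⟩
        · intro n hn hn'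
          simp only [mem_filter, mem_Icc, mem_range, Nat.ModEq, Nat.mod_eq_of_lt hc] at hn hn'
          have : n = 0 := by
            by_contra h
            exact hn' ⟨⟨by omega, by omega⟩, hn.2⟩
          simp [this, th]
      have h4 : Vale.Agent.P013.J.psiAP y q c -
          ∑ n ∈ (Icc 1 y).filter (fun n => n ≡ c [MOD q]), th n =
          ∑ n ∈ (Icc 1 y).filter (fun n => n ≡ c [MOD q]), (vonMangoldt n - th n) := by
        unfold Vale.Agent.P013.J.psiAP
        rw [Nat.floor_natCast, Finset.sum_sub_distrib]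
      have h5 : 0 ≤ ∑ n ∈ (Icc 1 y).filter (fun n => n ≡ c [MOD q]), (vonMangoldt n - th n) :=
        Finset.sum_nonneg fun n _ => by linarith [th_le_lam n]
      have h7 : ∑ n ∈ (Icc 1 y).filter (fun n => n ≡ c [MOD q]), (vonMangoldt n - th n) ≤
          2 * √N * L := by
        refine le_trans (Finset.sum_le_sum_of_subset_of_nonneg ?_ ?_) (sum_lam_sub N hN)
        · exact (Finset.filter_subset _ _).trans (Finset.Icc_subset_Icc le_rfl hyN)
        · intro n _ _; linarith [th_le_lam n]
      have h8 : ((y + 1 : ℕ) : ℝ) / Nat.totient q = y / Nat.totient q + 1 / Nat.totient q := by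
        push_cast; ring
      have h9 : (1 : ℝ) / Nat.totient q ≤ 1 := div_le_self zero_le_one hφ
      have h10 : (0 : ℝ) ≤ 1 / Nat.totient q := by positivity
      have h11 : 2 * √(N : ℝ) * L ≤ 2 * D * L := by gcongr
      rw [h3, h8]
      have h12 := abs_le.1 (h1.trans h2)
      rw [abs_le]; constructor <;> nlinarith [h12.1, h12.2]
  · rw [sub_zero, abs_of_nonneg hsum0]
    have h1 : ∑ n ∈ (range x).filter (fun n => n % q = c), th n ≤
        ∑ n ∈ range x, if Nat.gcd c q = n then L else 0 := by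
      rw [Finset.sum_filter]
      refine Finset.sum_le_sum fun n hn => ?_
      have hnN : n ≤ N := by have := Finset.mem_range.1 hn; omega
      by_cases h : n % q = c
      · rw [if_pos h]
        by_cases hg : Nat.gcd c q = n
        · rw [if_pos hg]; exact th_le hnN
        · rw [if_neg hg]
          unfold th
          rw [if_neg]
          intro hp
          have hd : Nat.gcd c q ∣ n := by
            rw [← Nat.mod_add_div n q, h]
            exact dvd_add (Nat.gcd_dvd_left _ _) (Dvd.dvd.mul_right (Nat.gcd_dvd_right _ _) _)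
          rcases (Nat.dvd_prime hp).1 hd with h' | h'
          · exact hcop h'
          · exact hg h'
      · rw [if_neg h]; split_ifs
        · linarith
        · exact le_rfl
    rw [Finset.sum_ite_eq] at h1
    have h2 : ∑ n ∈ (range x).filter (fun n => n % q = c), th n ≤ L := by
      refine h1.trans ?_
      split_ifs
      · exact le_rfl
      · linarith
    nlinarith

lemma sum_ap (g : ℕ → ℝ) (x q c : ℕ) (hc : c < q) :
    ∑ n ∈ (range x).filter (fun n => n % q = c), g n =
      ∑ s ∈ range ((x + q - 1 - c) / q), g (c + q * s) := by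
  have hq : 0 < q := by omega
  refine Finset.sum_nbij' (fun n => n / q) (fun s => c + q * s) ?_ ?_ ?_ ?_ ?_
  · intro n hn
    simp only [mem_filter, mem_range] at hn ⊢
    rw [Nat.lt_iff_add_one_le, Nat.le_div_iff_mul_le hq]
    have := Nat.mod_add_div n q
    rw [add_mul, mul_comm]
    omega
  · intro s hs
    simp only [mem_filter, mem_range] at hs ⊢
    rw [Nat.lt_iff_add_one_le, Nat.le_div_iff_mul_le hq, add_mul, mul_comm] at hs
    refine ⟨by omega, ?_⟩
    rw [Nat.add_mul_mod_self_left, Nat.mod_eq_of_lt hc]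
  · intro n hn
    simp only [mem_filter, mem_range] at hn ⊢
    rw [← hn.2]; exact Nat.mod_add_div n q
  · intro s _
    rw [Nat.add_mul_div_left _ _ hq, Nat.div_eq_of_lt hc, zero_add]
  · intro n hn
    simp only [mem_filter, mem_range] at hn ⊢
    rw [← hn.2, Nat.mod_add_div]

lemma cnt_one (p q c : ℕ) (hp : p.Prime) (hq : ¬ p ∣ q) :
    ∑ s ∈ range p, (if p ∣ c + q * s then (1 : ℝ) else 0) = 1 := by
  haveI := Fact.mk hp
  have hq' : (q : ZMod p) ≠ 0 := by rwa [Ne, ZMod.natCast_eq_zero_iff]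
  have key : ∀ s : ℕ, p ∣ c + q * s ↔ (s : ZMod p) = -(c : ZMod p) / q := by
    intro s
    rw [← ZMod.natCast_eq_zero_iff, eq_div_iff hq']
    push_cast
    constructor <;> intro h <;> linear_combination h
  rw [Finset.sum_eq_single (-(c : ZMod p) / q).val]
  · rw [if_pos ((key _).2 (ZMod.natCast_zmod_val _))]
  · intro s hs hne
    rw [if_neg]
    intro h
    apply hne
    rw [← (key s).1 h, ZMod.val_cast_of_lt (Finset.mem_range.1 hs)]
  · intro h
    exact absurd (Finset.mem_range.2 (ZMod.val_lt _)) h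

lemma wt_mul (z q : ℕ) (hq : 1 ≤ q) (hqz : q ≤ z) :
    wt z * ∏ p ∈ (PP z).filter (fun p => ¬ p ∣ q), (1 - 1 / (p : ℝ)) = q / Nat.totient q := by
  have hpos : ∀ p ∈ PP z, 0 < 1 - 1 / (p : ℝ) := fun p hp => by linarith [(inv_le_half hp).2]
  have h1 : (PP z).filter (fun p => p ∣ q) = q.primeFactors := by
    ext p
    simp only [mem_filter, mem_PP, Nat.mem_primeFactors]
    constructor
    · rintro ⟨⟨a, _⟩, b⟩; exact ⟨a, b, by omega⟩
    · rintro ⟨a, b, _⟩; exact ⟨⟨a, (Nat.le_of_dvd hq b).trans hqz⟩, b⟩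
  have h2 : (Nat.totient q : ℝ) = q * ∏ p ∈ q.primeFactors, (1 - 1 / (p : ℝ)) := by
    have := congrArg (fun t : ℚ => (t : ℝ)) (Nat.totient_eq_mul_prod_factors q)
    simpa using this
  have h3 : 0 < ∏ p ∈ q.primeFactors, (1 - 1 / (p : ℝ)) :=
    Finset.prod_pos fun p hp => hpos p (by rw [← h1] at hp; exact (mem_filter.1 hp).1)
  have h4 : 0 < ∏ p ∈ (PP z).filter (fun p => ¬ p ∣ q), (1 - 1 / (p : ℝ)) :=
    Finset.prod_pos fun p hp => hpos p (mem_filter.1 hp).1
  have hq0 : (0 : ℝ) < q := by exact_mod_cast hq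
  unfold wt
  rw [Finset.prod_inv_distrib, ← Finset.prod_filter_mul_prod_filter_not (PP z) (fun p => p ∣ q),
    h1, h2]
  field_simp

lemma prod_ind (P : Finset ℕ) (Q : ℕ → Prop) [DecidablePred Q] :
    ∏ p ∈ P, (1 - if Q p then (1 : ℝ) else 0) = if ∀ p ∈ P, ¬ Q p then 1 else 0 := by
  split_ifs with h
  · exact Finset.prod_eq_one fun p hp => by rw [if_neg (h p hp), sub_zero]
  · push Not at h
    obtain ⟨p, hp, hQ⟩ := h
    exact Finset.prod_eq_zero hp (by rw [if_pos hQ, sub_self])

lemma ind_mem (Q : Prop) [Decidable Q] :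
    0 ≤ (if Q then (1 : ℝ) else 0) ∧ (if Q then (1 : ℝ) else 0) ≤ 1 := by
  split_ifs <;> norm_num

lemma map (B C : ℕ) (hB : 1 ≤ B) : ∀ᶠ N : ℕ in atTop, ∀ x q c : ℕ, x ≤ N + 1 → 1 ≤ q →
    q ≤ zz B N → c < q →
    |∑ n ∈ (range x).filter (fun n => n % q = c), md (zz B N) n - mt x q c| ≤
      N / Real.log N ^ C := by
  filter_upwards [ev_D (C + 3), ev_ge 13, eventually_ge_atTop 1, par_ev B (C + 3), wt_ev B hB,
    small 2 1 B hB] with N hD h6 hN ⟨K, hK1, hK2⟩ hwt hsm
  intro x q c hx hq hqz hc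
  set L := Real.log N with hL
  set z := zz B N with hz
  set D := (N : ℝ) / L ^ (C + 3) with hDdef
  have hN1 : (1 : ℝ) ≤ N := by exact_mod_cast hN
  have hs1 : (1 : ℝ) ≤ √N := Real.one_le_sqrt.2 hN1
  have hD1 : 1 ≤ D := hs1.trans hD
  have hgoal : (N : ℝ) / L ^ C = D * L ^ 3 := by
    rw [hDdef, pow_add]; field_simp
  rw [hgoal]
  unfold mt
  split_ifs with hcop
  · rw [sum_ap _ x q c hc]
    set Y := (x + q - 1 - c) / q with hY
    set P := (PP z).filter (fun p => ¬ p ∣ q) with hP
    set b : ℕ → ℕ → ℝ := fun p s => if p ∣ c + q * s then 1 else 0 with hb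
    have h1 : ∀ s, md z (c + q * s) = wt z * ∏ p ∈ P, (1 - b p s) := by
      intro s
      simp only [hb]
      rw [prod_ind P (fun p => p ∣ c + q * s)]
      unfold md
      have : (∀ p ∈ PP z, ¬ p ∣ c + q * s) ↔ ∀ p ∈ P, ¬ p ∣ c + q * s := by
        constructor
        · intro h p hp; exact h p (mem_filter.1 hp).1
        · intro h p hp hd
          by_cases hpq : p ∣ q
          · have : p ∣ c := (Nat.dvd_add_left (Dvd.dvd.mul_right hpq s)).1 hd
            exact (mem_PP.1 hp).1.one_lt.ne' (Nat.eq_one_of_dvd_coprimes hcop this hpq)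
          · exact h p (mem_filter.2 ⟨hp, hpq⟩) hd
      simp only [this]
      split_ifs <;> simp
    have h2 : ∀ p ∈ P, dn b p = 1 / (p : ℝ) := by
      intro p hp
      unfold dn
      simp only [hb]
      rw [cnt_one p q c (mem_PP.1 (mem_filter.1 hp).1).1 (mem_filter.1 hp).2]
    have h3 := sieve b P z K Y (by omega) (fun p hp => ⟨(mem_PP.1 (mem_filter.1 hp).1).1,
      (mem_PP.1 (mem_filter.1 hp).1).2, fun s => by
        simp only [hb]
        rw [mul_add, ← add_assoc]
        simp only [Nat.dvd_add_left (Dvd.intro_left q rfl)], fun s => ind_mem _⟩)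
    rw [Finset.prod_congr rfl (fun p hp => by rw [h2 p hp] :
      ∀ p ∈ P, 1 - dn b p = 1 - 1 / (p : ℝ)), Finset.sum_congr rfl h2] at h3
    have h4 := wt_mul z q hq hqz
    rw [← hP] at h4
    set W := ∏ p ∈ P, (1 - 1 / (p : ℝ)) with hW
    have hW1 : W ≤ 1 := Finset.prod_le_one
      (fun p hp => by linarith [(inv_le_half (mem_filter.1 hp).1).2])
      (fun p hp => by linarith [(inv_le_half (mem_filter.1 hp).1).1])
    have hW0 : 0 ≤ W := Finset.prod_nonneg
      (fun p hp => by linarith [(inv_le_half (mem_filter.1 hp).1).2])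
    have h5 : Real.exp (2 * ∑ p ∈ P, 1 / (p : ℝ)) ≤ L := by
      refine le_trans ?_ hsm
      rw [one_mul, Real.exp_le_exp]
      have : ∑ p ∈ P, 1 / (p : ℝ) ≤ sP z :=
        Finset.sum_le_sum_of_subset_of_nonneg (Finset.filter_subset _ _) fun p _ _ => by positivity
      push_cast; linarith
    have hq0 : (0 : ℝ) < q := by exact_mod_cast hq
    have hY1 : Y * q ≤ x + q := (Nat.div_mul_le_self _ _).trans (by omega)
    have hY2 : x ≤ Y * q + q := by
      have := Nat.lt_div_mul_add (a := x + q - 1 - c) (show 0 < q by omega)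
      rw [← hY] at this
      omega
    have hY3 : |(Y : ℝ) - x / q| ≤ 1 := by
      have a1 : (Y : ℝ) * q ≤ x + q := by exact_mod_cast hY1
      have a2 : (x : ℝ) ≤ Y * q + q := by exact_mod_cast hY2
      rw [abs_le]; constructor
      · have : (x : ℝ) / q ≤ Y + 1 := by rw [div_le_iff₀ hq0]; linarith
        linarith
      · have : (Y : ℝ) - 1 ≤ x / q := by rw [le_div_iff₀ hq0]; linarith
        linarith
    have hY4 : (Y : ℝ) ≤ 3 * N := by
      have a1 : (x : ℝ) / q ≤ x := div_le_self (Nat.cast_nonneg x) (by exact_mod_cast hq)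
      have a2 : (x : ℝ) ≤ N + 1 := by exact_mod_cast hx
      linarith [(abs_le.1 hY3).2]
    have h6' : (Y : ℝ) / 2 ^ K ≤ 3 * D := by
      rw [hDdef, ← mul_div_assoc]
      exact div_le_div₀ (by positivity) hY4 (by positivity) hK1
    have h7 : (z : ℝ) ^ K ≤ D := by
      rw [hDdef, le_div_iff₀ (by positivity)]
      exact hK2.trans (sqrt_le_self hN)
    have h8 : |∑ n ∈ range Y, ∏ p ∈ P, (1 - b p n) - Y * W| ≤ 3 * L * (4 * D) := by
      refine h3.trans ?_
      gcongr
      linarith
    have h9 : (x : ℝ) / Nat.totient q = wt z * W * (x / q) := by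
      rw [h4]; field_simp
    have hw1 := one_le_wt z
    simp only [h1]
    rw [← Finset.mul_sum, h9]
    have h10 : wt z * ∑ n ∈ range Y, ∏ p ∈ P, (1 - b p n) - wt z * W * (x / q) =
        wt z * ((∑ n ∈ range Y, ∏ p ∈ P, (1 - b p n) - Y * W) + W * (Y - x / q)) := by ring
    rw [h10, abs_mul, abs_of_nonneg (by linarith : 0 ≤ wt z)]
    have h11 : |W * ((Y : ℝ) - x / q)| ≤ 1 := by
      rw [abs_mul, abs_of_nonneg hW0]
      exact mul_le_one₀ hW1 (abs_nonneg _) hY3
    calc _ ≤ L * (3 * L * (4 * D) + 1) := by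
          gcongr
          exact (abs_add_le _ _).trans (add_le_add h8 h11)
      _ ≤ L * (3 * L * (4 * D) + L * D) := by
          gcongr; nlinarith
      _ = 13 * (D * L ^ 2) := by ring
      _ ≤ L * (D * L ^ 2) := by gcongr
      _ = D * L ^ 3 := by ring
  · have h0 : ∑ n ∈ (range x).filter (fun n => n % q = c), md z n = 0 := by
      refine Finset.sum_eq_zero fun n hn => ?_
      obtain ⟨p, hp, hpc, hpq⟩ := Nat.Prime.not_coprime_iff_dvd.1 hcop
      unfold md
      rw [if_neg]
      intro h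
      refine h p (mem_PP.2 ⟨hp, (Nat.le_of_dvd hq hpq).trans hqz⟩) ?_
      rw [← Nat.mod_add_div n q, (mem_filter.1 hn).2]
      exact dvd_add hpc (Dvd.dvd.mul_right hpq _)
    rw [h0, sub_zero, abs_zero]
    positivity

end Vale.Agent.P027P
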