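import Mathlib

/-! The pure sieve of Brun. -/

set_option linter.all false

namespace Vale.Agent.P027P

open Finset Real

/-- truncated inclusion and exclusion -/
noncomputable def AA (K : ℕ) (P : Finset ℕ) (x : ℕ → ℝ) : ℝ :=
  ∑ S ∈ P.powerset, if S.card < K then (-1) ^ S.card * ∏ p ∈ S, x p else 0

/-- elementary symmetric function -/
noncomputable def EE (K : ℕ) (P : Finset ℕ) (x : ℕ → ℝ) : ℝ :=
  ∑ S ∈ P.powerset, if S.card = K then ∏ p ∈ S, x p else 0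

lemma AA_zero (P : Finset ℕ) (x : ℕ → ℝ) : AA 0 P x = 0 := by simp [AA]

lemma EE_zero (P : Finset ℕ) (x : ℕ → ℝ) : EE 0 P x = 1 := by
  unfold EE
  rw [Finset.sum_eq_single ∅]
  · simp
  · intro S _ hS
    rw [if_neg (by simpa [Finset.card_eq_zero] using hS)]
  · simp

lemma AA_insert (K : ℕ) (P : Finset ℕ) (x : ℕ → ℝ) (p : ℕ) (hp : p ∉ P) :
    AA (K + 1) (insert p P) x = AA (K + 1) P x - x p * AA K P x := by
  unfold AA
  rw [Finset.sum_powerset_insert hp, Finset.mul_sum, sub_eq_add_neg, ← Finset.sum_neg_distrib]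
  congr 1
  refine Finset.sum_congr rfl fun S hS => ?_
  have hpS : p ∉ S := fun h => hp (Finset.mem_powerset.1 hS h)
  rw [Finset.card_insert_of_notMem hpS, Finset.prod_insert hpS]
  by_cases h : S.card < K
  · rw [if_pos (by omega), if_pos h]; ring
  · rw [if_neg (by omega), if_neg h]; ring

lemma EE_insert (K : ℕ) (P : Finset ℕ) (x : ℕ → ℝ) (p : ℕ) (hp : p ∉ P) :
    EE (K + 1) (insert p P) x = EE (K + 1) P x + x p * EE K P x := by
  unfold EE
  rw [Finset.sum_powerset_insert hp, Finset.mul_sum]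
  congr 1
  refine Finset.sum_congr rfl fun S hS => ?_
  have hpS : p ∉ S := fun h => hp (Finset.mem_powerset.1 hS h)
  rw [Finset.card_insert_of_notMem hpS, Finset.prod_insert hpS]
  by_cases h : S.card = K
  · rw [if_pos (by omega), if_pos h]
  · rw [if_neg (by omega), if_neg h]; ring

lemma bonf (P : Finset ℕ) (x : ℕ → ℝ) (hx : ∀ p ∈ P, 0 ≤ x p ∧ x p ≤ 1) (K : ℕ) :
    |∏ p ∈ P, (1 - x p) - AA K P x| ≤ EE K P x := by
  induction P using Finset.induction_on generalizing K with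
  | empty =>
    cases K with
    | zero => simp [AA_zero, EE_zero]
    | succ K => simp [AA, EE]
  | insert p P hp ih =>
    have ih' := ih fun q hq => hx q (Finset.mem_insert_of_mem hq)
    cases K with
    | zero =>
      rw [AA_zero, EE_zero, sub_zero, abs_of_nonneg (Finset.prod_nonneg fun q hq => by
        linarith [(hx q hq).2])]
      exact Finset.prod_le_one (fun q hq => by linarith [(hx q hq).2])
        (fun q hq => by linarith [(hx q hq).1])
    | succ K =>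
      rw [AA_insert K P x p hp, EE_insert K P x p hp, Finset.prod_insert hp]
      have h0 := (hx p (Finset.mem_insert_self _ _)).1
      have h1 := ih' (K + 1)
      have h2 := ih' K
      have : (1 - x p) * ∏ q ∈ P, (1 - x q) - (AA (K + 1) P x - x p * AA K P x) =
          (∏ q ∈ P, (1 - x q) - AA (K + 1) P x) - x p * (∏ q ∈ P, (1 - x q) - AA K P x) := by ring
      rw [this]
      refine (abs_sub _ _).trans (add_le_add h1 ?_)
      rw [abs_mul, abs_of_nonneg h0]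
      exact mul_le_mul_of_nonneg_left h2 h0

lemma sum_prod_le (P : Finset ℕ) (x : ℕ → ℝ) (hx : ∀ p ∈ P, 0 ≤ x p) :
    ∑ S ∈ P.powerset, ∏ p ∈ S, x p ≤ exp (∑ p ∈ P, x p) := by
  rw [← Finset.prod_one_add, Real.exp_sum]
  exact Finset.prod_le_prod (fun p hp => by linarith [hx p hp])
    (fun p hp => by linarith [Real.add_one_le_exp (x p)])

lemma EE_le (P : Finset ℕ) (x : ℕ → ℝ) (hx : ∀ p ∈ P, 0 ≤ x p) (K : ℕ) :
    EE K P x ≤ exp (2 * ∑ p ∈ P, x p) / 2 ^ K := by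
  have h := sum_prod_le P (fun p => 2 * x p) (fun p hp => by linarith [hx p hp])
  rw [← Finset.mul_sum] at h
  rw [le_div_iff₀ (by positivity)]
  refine le_trans ?_ h
  unfold EE
  rw [Finset.sum_mul]
  refine Finset.sum_le_sum fun S hS => ?_
  have hS' : ∀ p ∈ S, 0 ≤ x p := fun p hp => hx p (Finset.mem_powerset.1 hS hp)
  split_ifs with hc
  · rw [Finset.prod_mul_distrib, Finset.prod_const, hc, mul_comm]
  · rw [zero_mul]; exact Finset.prod_nonneg fun p hp => by linarith [hS' p hp]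

lemma per_mul (g : ℕ → ℝ) (d : ℕ) (hg : Function.Periodic g d) (k : ℕ) :
    ∑ n ∈ range (k * d), g n = k * ∑ n ∈ range d, g n := by
  induction k with
  | zero => simp
  | succ k ih =>
    rw [Nat.succ_mul, Finset.sum_range_add, ih]
    have : ∀ n, g (k * d + n) = g n := fun n => by
      rw [add_comm]; exact (hg.nat_mul k) n
    simp only [this]
    push_cast; ring

lemma per_sum (g : ℕ → ℝ) (d : ℕ) (hd : 0 < d) (hg : Function.Periodic g d) (h0 : ∀ n, 0 ≤ g n)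
    (Y : ℕ) : |∑ n ∈ range Y, g n - Y * ((∑ n ∈ range d, g n) / d)| ≤ ∑ n ∈ range d, g n := by
  set ρ := ∑ n ∈ range d, g n with hρ
  have hρ0 : 0 ≤ ρ := Finset.sum_nonneg fun n _ => h0 n
  have hY : Y = Y / d * d + Y % d := (Nat.div_add_mod' Y d).symm
  have hlt : Y % d < d := Nat.mod_lt _ hd
  have h1 : ∑ n ∈ range Y, g n = (Y / d : ℕ) * ρ + ∑ n ∈ range (Y % d), g n := by
    conv_lhs => rw [hY]
    rw [Finset.sum_range_add, per_mul g d hg]
    congr 1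
    refine Finset.sum_congr rfl fun n _ => ?_
    rw [add_comm]; exact (hg.nat_mul _) n
  have h2 : ∑ n ∈ range (Y % d), g n ≤ ρ :=
    Finset.sum_le_sum_of_subset_of_nonneg (Finset.range_mono hlt.le) fun n _ _ => h0 n
  have h3 : 0 ≤ ∑ n ∈ range (Y % d), g n := Finset.sum_nonneg fun n _ => h0 n
  have hdR : (0 : ℝ) < d := by exact_mod_cast hd
  have h4 : (Y : ℝ) * (ρ / d) = (Y / d : ℕ) * ρ + ((Y % d : ℕ) : ℝ) / d * ρ := by
    have : (Y : ℝ) = (Y / d : ℕ) * d + (Y % d : ℕ) := by exact_mod_cast hY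
    rw [this]; field_simp
  have h5 : ((Y % d : ℕ) : ℝ) / d ≤ 1 := by
    rw [div_le_one hdR]; exact_mod_cast hlt.le
  have h6 : 0 ≤ ((Y % d : ℕ) : ℝ) / d := by positivity
  have h7 : ((Y % d : ℕ) : ℝ) / d * ρ ≤ ρ := mul_le_of_le_one_left hρ0 h5
  have h8 : 0 ≤ ((Y % d : ℕ) : ℝ) / d * ρ := mul_nonneg h6 hρ0
  rw [h1, h4, abs_le]
  constructor <;> linarith

lemma per_crt (g₁ g₂ : ℕ → ℝ) (d₁ d₂ : ℕ) (h₁ : 0 < d₁) (h₂ : 0 < d₂) (hc : d₁.Coprime d₂)
    (p₁ : Function.Periodic g₁ d₁) (p₂ : Function.Periodic g₂ d₂) :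
    ∑ n ∈ range (d₁ * d₂), g₁ n * g₂ n = (∑ n ∈ range d₁, g₁ n) * ∑ n ∈ range d₂, g₂ n := by
  rw [Finset.sum_mul_sum, ← Finset.sum_product']
  refine Finset.sum_bij (fun n _ => (n % d₁, n % d₂)) ?_ ?_ ?_ ?_
  · intro n _
    simp [Nat.mod_lt _ h₁, Nat.mod_lt _ h₂]
  · intro a ha b hb hab
    simp only [Prod.mk.injEq] at hab
    have : a ≡ b [MOD d₁ * d₂] := (Nat.modEq_and_modEq_iff_modEq_mul hc).1 ⟨hab.1, hab.2⟩
    exact Nat.ModEq.eq_of_lt_of_lt this (Finset.mem_range.1 ha) (Finset.mem_range.1 hb)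
  · rintro ⟨a, b⟩ hab
    simp only [Finset.mem_product, Finset.mem_range] at hab
    refine ⟨Nat.chineseRemainder hc a b, Finset.mem_range.2
      (Nat.chineseRemainder_lt_mul hc a b h₁.ne' h₂.ne'), ?_⟩
    have e1 := (Nat.chineseRemainder hc a b).2.1
    have e2 := (Nat.chineseRemainder hc a b).2.2
    simp only [Prod.mk.injEq]
    exact ⟨by rw [e1, Nat.mod_eq_of_lt hab.1], by rw [e2, Nat.mod_eq_of_lt hab.2]⟩
  · intro n _
    simp only [p₁.map_mod_nat, p₂.map_mod_nat]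

/-- density of a periodic weight -/
noncomputable def dn (b : ℕ → ℕ → ℝ) (p : ℕ) : ℝ := (∑ n ∈ range p, b p n) / p

lemma per_prod (b : ℕ → ℕ → ℝ) (S : Finset ℕ) (hS : ∀ p ∈ S, p.Prime ∧ Function.Periodic (b p) p) :
    Function.Periodic (fun n => ∏ p ∈ S, b p n) (∏ p ∈ S, p) ∧
    ∑ n ∈ range (∏ p ∈ S, p), ∏ p ∈ S, b p n = (∏ p ∈ S, p : ℕ) * ∏ p ∈ S, dn b p := by
  constructor
  · intro n
    refine Finset.prod_congr rfl fun p hp => ?_
    obtain ⟨k, hk⟩ := Finset.dvd_prod_of_mem (fun p => p) hp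
    rw [hk, mul_comm]
    exact ((hS p hp).2.nat_mul k) n
  · induction S using Finset.induction_on with
    | empty => simp
    | insert p S hp ih =>
      have hS' : ∀ q ∈ S, q.Prime ∧ Function.Periodic (b q) q :=
        fun q hq => hS q (Finset.mem_insert_of_mem hq)
      have hp' := hS p (Finset.mem_insert_self _ _)
      have hper : Function.Periodic (fun n => ∏ p ∈ S, b p n) (∏ p ∈ S, p) := by
        intro n
        refine Finset.prod_congr rfl fun p hp => ?_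
        obtain ⟨k, hk⟩ := Finset.dvd_prod_of_mem (fun p => p) hp
        rw [hk, mul_comm]
        exact ((hS' p hp).2.nat_mul k) n
      simp only [Finset.prod_insert hp]
      rw [per_crt (b p) (fun n => ∏ p ∈ S, b p n) p (∏ p ∈ S, p) hp'.1.pos
        (Finset.prod_pos fun q hq => (hS' q hq).1.pos)
        (Nat.Coprime.prod_right fun q hq => (Nat.coprime_primes hp'.1 (hS' q hq).1).2
          (fun h => hp (h ▸ hq))) hp'.2 hper, ih hS']
      have : (p : ℝ) ≠ 0 := by exact_mod_cast hp'.1.ne_zero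
      unfold dn
      push_cast
      field_simp

lemma dn_mem (b : ℕ → ℕ → ℝ) (p : ℕ) (hb : ∀ n, 0 ≤ b p n ∧ b p n ≤ 1) :
    0 ≤ dn b p ∧ dn b p ≤ 1 := by
  unfold dn
  refine ⟨div_nonneg (Finset.sum_nonneg fun n _ => (hb n).1) (Nat.cast_nonneg _), ?_⟩
  refine div_le_one_of_le₀ ?_ (Nat.cast_nonneg _)
  calc ∑ n ∈ range p, b p n ≤ ∑ n ∈ range p, (1 : ℝ) := Finset.sum_le_sum fun n _ => (hb n).2
    _ = p := by simp

lemma count_err (b : ℕ → ℕ → ℝ) (S : Finset ℕ) (z K Y : ℕ) (hz : 1 ≤ z)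
    (hS : ∀ p ∈ S, p.Prime ∧ p ≤ z ∧ Function.Periodic (b p) p ∧ ∀ n, 0 ≤ b p n ∧ b p n ≤ 1)
    (hK : S.card ≤ K) :
    |∑ n ∈ range Y, ∏ p ∈ S, b p n - Y * ∏ p ∈ S, dn b p| ≤ (z : ℝ) ^ K * ∏ p ∈ S, dn b p := by
  obtain ⟨h1, h2⟩ := per_prod b S fun p hp => ⟨(hS p hp).1, (hS p hp).2.2.1⟩
  have hd : 0 < ∏ p ∈ S, p := Finset.prod_pos fun q hq => (hS q hq).1.pos
  have h3 := per_sum _ _ hd h1 (fun n => Finset.prod_nonneg fun p hp => ((hS p hp).2.2.2 n).1) Y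
  have hdR : ((∏ p ∈ S, p : ℕ) : ℝ) ≠ 0 := by exact_mod_cast hd.ne'
  rw [h2, mul_div_cancel_left₀ _ hdR] at h3
  refine h3.trans (mul_le_mul_of_nonneg_right ?_
    (Finset.prod_nonneg fun p hp => (dn_mem b p (hS p hp).2.2.2).1))
  have : ∏ p ∈ S, p ≤ z ^ K :=
    (Finset.prod_le_pow_card S _ z fun p hp => (hS p hp).2.1).trans (Nat.pow_le_pow_right hz hK)
  exact_mod_cast this

lemma sum_EE (b : ℕ → ℕ → ℝ) (P : Finset ℕ) (z K Y : ℕ) (hz : 1 ≤ z)
    (hP : ∀ p ∈ P, p.Prime ∧ p ≤ z ∧ Function.Periodic (b p) p ∧ ∀ n, 0 ≤ b p n ∧ b p n ≤ 1) :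
    ∑ n ∈ range Y, EE K P (fun p => b p n) ≤
      exp (2 * ∑ p ∈ P, dn b p) * (Y / 2 ^ K + (z : ℝ) ^ K) := by
  have hx : ∀ p ∈ P, 0 ≤ dn b p := fun p hp => (dn_mem b p (hP p hp).2.2.2).1
  have hs : 0 ≤ ∑ p ∈ P, dn b p := Finset.sum_nonneg hx
  have h1 : ∑ n ∈ range Y, EE K P (fun p => b p n) ≤
      Y * EE K P (dn b) + (z : ℝ) ^ K * ∑ S ∈ P.powerset, ∏ p ∈ S, dn b p := by
    unfold EE
    rw [Finset.sum_comm, Finset.mul_sum, Finset.mul_sum, ← Finset.sum_add_distrib]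
    refine Finset.sum_le_sum fun S hS => ?_
    have hSP := Finset.mem_powerset.1 hS
    split_ifs with hc
    · have := count_err b S z K Y hz (fun p hp => hP p (hSP hp)) hc.le
      linarith [(abs_le.1 this).2]
    · simp only [Finset.sum_const_zero, mul_zero, zero_add]
      exact mul_nonneg (by positivity) (Finset.prod_nonneg fun p hp => hx p (hSP hp))
  have h2 := EE_le P (dn b) hx K
  have h3 := (sum_prod_le P (dn b) hx).trans (Real.exp_le_exp.2 (show _ ≤ 2 * ∑ p ∈ P, dn b p by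
    linarith))
  calc _ ≤ _ := h1
    _ ≤ Y * (exp (2 * ∑ p ∈ P, dn b p) / 2 ^ K) + (z : ℝ) ^ K * exp (2 * ∑ p ∈ P, dn b p) := by
      gcongr
    _ = _ := by ring

theorem sieve (b : ℕ → ℕ → ℝ) (P : Finset ℕ) (z K Y : ℕ) (hz : 1 ≤ z)
    (hP : ∀ p ∈ P, p.Prime ∧ p ≤ z ∧ Function.Periodic (b p) p ∧ ∀ n, 0 ≤ b p n ∧ b p n ≤ 1) :
    |∑ n ∈ range Y, ∏ p ∈ P, (1 - b p n) - Y * ∏ p ∈ P, (1 - dn b p)| ≤
      3 * exp (2 * ∑ p ∈ P, dn b p) * (Y / 2 ^ K + (z : ℝ) ^ K) := by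
  have hx : ∀ p ∈ P, 0 ≤ dn b p := fun p hp => (dn_mem b p (hP p hp).2.2.2).1
  have hs : 0 ≤ ∑ p ∈ P, dn b p := Finset.sum_nonneg hx
  have h1 : |∑ n ∈ range Y, ∏ p ∈ P, (1 - b p n) - ∑ n ∈ range Y, AA K P (fun p => b p n)| ≤
      ∑ n ∈ range Y, EE K P (fun p => b p n) := by
    rw [← Finset.sum_sub_distrib]
    exact (Finset.abs_sum_le_sum_abs _ _).trans (Finset.sum_le_sum fun n _ =>
      bonf P (fun p => b p n) (fun p hp => (hP p hp).2.2.2 n) K)
  have h2 := sum_EE b P z K Y hz hP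
  have h3 : |∑ n ∈ range Y, AA K P (fun p => b p n) - Y * AA K P (dn b)| ≤
      (z : ℝ) ^ K * ∑ S ∈ P.powerset, ∏ p ∈ S, dn b p := by
    unfold AA
    rw [Finset.sum_comm, Finset.mul_sum, Finset.mul_sum, ← Finset.sum_sub_distrib]
    refine (Finset.abs_sum_le_sum_abs _ _).trans (Finset.sum_le_sum fun S hS => ?_)
    have hSP := Finset.mem_powerset.1 hS
    split_ifs with hc
    · have := count_err b S z K Y hz (fun p hp => hP p (hSP hp)) hc.le
      rw [← Finset.mul_sum, mul_left_comm, ← mul_sub, abs_mul, abs_pow, abs_neg, abs_one, one_pow,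
        one_mul]
      exact this
    · simp only [Finset.sum_const_zero, mul_zero, sub_zero, abs_zero]
      exact mul_nonneg (by positivity) (Finset.prod_nonneg fun p hp => hx p (hSP hp))
  have h4 := bonf P (dn b) (fun p hp => dn_mem b p (hP p hp).2.2.2) K
  have h5 := EE_le P (dn b) hx K
  have h6 := (sum_prod_le P (dn b) hx).trans (Real.exp_le_exp.2 (show _ ≤ 2 * ∑ p ∈ P, dn b p by
    linarith))
  set E := exp (2 * ∑ p ∈ P, dn b p)
  have hE : 0 < E := Real.exp_pos _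
  have h7 : (z : ℝ) ^ K * ∑ S ∈ P.powerset, ∏ p ∈ S, dn b p ≤ (z : ℝ) ^ K * E := by gcongr
  have h8 : |(Y : ℝ) * AA K P (dn b) - Y * ∏ p ∈ P, (1 - dn b p)| ≤ Y * (E / 2 ^ K) := by
    rw [← mul_sub, abs_mul, abs_of_nonneg (Nat.cast_nonneg Y), abs_sub_comm]
    exact mul_le_mul_of_nonneg_left (h4.trans h5) (Nat.cast_nonneg Y)
  have h9 : (Y : ℝ) * (E / 2 ^ K) = E * (Y / 2 ^ K) := by ring
  have ha : 0 ≤ E * ((Y : ℝ) / 2 ^ K) := by positivity
  have hb : 0 ≤ E * (z : ℝ) ^ K := by positivity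
  rw [abs_le] at h1 h3 h8 ⊢
  constructor <;> nlinarith [h1.1, h1.2, h3.1, h3.2, h8.1, h8.2]

end Vale.Agent.P027P
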