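import Vale.Agent.P027P.Iface
import Vale.Agent.P027P.Sieve

/-! Choice of the parameters. -/

set_option linter.all false

namespace Vale.Agent.P027P

open Finset Real Filter

/-- the sieve level -/
noncomputable def zz (B N : ℕ) : ℕ := ⌊Real.log N ^ B⌋₊

/-- sum of the reciprocals of the primes -/
noncomputable def sP (z : ℕ) : ℝ := ∑ p ∈ PP z, 1 / (p : ℝ)

lemma mem_PP {z p : ℕ} : p ∈ PP z ↔ p.Prime ∧ p ≤ z := by
  unfold PP; simp only [mem_filter, mem_range]; constructor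
  · rintro ⟨a, b⟩; exact ⟨b, by omega⟩
  · rintro ⟨a, b⟩; exact ⟨by omega, a⟩

lemma tL : Tendsto (fun N : ℕ => Real.log N) atTop atTop :=
  Real.tendsto_log_atTop.comp tendsto_natCast_atTop_atTop

lemma ev_ge (c : ℝ) : ∀ᶠ N : ℕ in atTop, c ≤ Real.log N := tL.eventually_ge_atTop c

lemma ev_logpow (c : ℝ) (C : ℕ) : ∀ᶠ x : ℝ in atTop, c * Real.log x ^ C ≤ x := by
  have h := (Real.isLittleO_pow_log_id_atTop (n := C)).bound (c := 1 / (|c| + 1)) (by positivity)
  filter_upwards [h, eventually_ge_atTop 1] with x hx h1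
  have h0 : 0 ≤ Real.log x ^ C := pow_nonneg (Real.log_nonneg h1) _
  rw [Real.norm_of_nonneg h0, id, Real.norm_of_nonneg (by linarith), one_div_mul_eq_div,
    le_div_iff₀ (by positivity)] at hx
  nlinarith [le_abs_self c]

lemma ev_pow (c : ℝ) (C : ℕ) (δ : ℝ) (hδ : 0 < δ) :
    ∀ᶠ N : ℕ in atTop, c * Real.log N ^ C ≤ (N : ℝ) ^ δ := by
  have h1 : Tendsto (fun N : ℕ => (N : ℝ) ^ δ) atTop atTop :=
    (tendsto_rpow_atTop hδ).comp tendsto_natCast_atTop_atTop
  filter_upwards [h1.eventually (ev_logpow (c / δ ^ C) C), eventually_ge_atTop 1] with N hN h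
  have hN0 : (0 : ℝ) < N := by exact_mod_cast h
  rw [Real.log_rpow hN0, mul_pow] at hN
  have : c / δ ^ C * (δ ^ C * Real.log N ^ C) = c * Real.log N ^ C := by field_simp
  linarith

lemma ev_sqrt (c : ℝ) (C : ℕ) : ∀ᶠ N : ℕ in atTop, c * Real.log N ^ C ≤ √N := by
  simpa only [Real.sqrt_eq_rpow] using ev_pow c C (1 / 2) (by norm_num)

lemma zz_le (B N : ℕ) : (zz B N : ℝ) ≤ Real.log N ^ B :=
  Nat.floor_le (pow_nonneg (Real.log_natCast_nonneg N) _)

lemma lt_zz (B N : ℕ) : Real.log N ^ B < zz B N + 1 := Nat.lt_floor_add_one _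

lemma zz_ge (B : ℕ) (hB : 1 ≤ B) (c : ℕ) : ∀ᶠ N : ℕ in atTop, c ≤ zz B N := by
  filter_upwards [ev_ge c, ev_ge 1] with N h h1
  exact Nat.le_floor (h.trans (le_self_pow₀ h1 (by omega)))

lemma par_ev (B C : ℕ) : ∀ᶠ N : ℕ in atTop, ∃ K : ℕ, Real.log N ^ C ≤ 2 ^ K ∧
    (zz B N : ℝ) ^ K * Real.log N ^ C ≤ √N := by
  filter_upwards [tL.eventually (ev_logpow (2 * (3 * B * C + C)) 2), ev_ge 3,
    eventually_ge_atTop 1] with N h h3 hN
  set L := Real.log N with hL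
  have hL0 : 0 < L := by linarith
  have hl : 1 ≤ Real.log L := by
    rw [Real.le_log_iff_exp_le hL0]
    linarith [Real.exp_one_lt_d9]
  refine ⟨C * ⌈2 * Real.log L⌉₊, ?_, ?_⟩
  · rw [mul_comm, pow_mul]
    refine pow_le_pow_left₀ hL0.le ?_ _
    rw [← Real.log_le_log_iff hL0 (by positivity), Real.log_pow]
    have h1 := Nat.le_ceil (2 * Real.log L)
    nlinarith [Real.log_two_gt_d9]
  · have h1 : ((⌈2 * Real.log L⌉₊ : ℕ) : ℝ) ≤ 3 * Real.log L := by
      have := Nat.ceil_lt_add_one (show 0 ≤ 2 * Real.log L by linarith)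
      linarith
    have hN0 : (0 : ℝ) < N := by exact_mod_cast hN
    calc (zz B N : ℝ) ^ (C * ⌈2 * Real.log L⌉₊) * L ^ C
        ≤ (L ^ B) ^ (C * ⌈2 * Real.log L⌉₊) * L ^ C := by
          gcongr; exact zz_le B N
      _ = Real.exp ((B * (C * ⌈2 * Real.log L⌉₊ : ℕ) + C) * Real.log L) := by
          rw [← pow_mul, ← pow_add, ← Real.exp_log (pow_pos hL0 _), Real.log_pow]
          push_cast; rfl
      _ ≤ Real.exp (L / 2) := by
          rw [Real.exp_le_exp]
          push_cast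
          have h2 : (B : ℝ) * (C * (⌈2 * Real.log L⌉₊ : ℝ)) ≤ B * (C * (3 * Real.log L)) := by
            gcongr
          have h4 : (C : ℝ) ≤ C * Real.log L := le_mul_of_one_le_right (Nat.cast_nonneg C) hl
          nlinarith
      _ = √N := by
          rw [Real.sqrt_eq_rpow, Real.rpow_def_of_pos hN0]; congr 1; ring

lemma sP_nonneg (z : ℕ) : 0 ≤ sP z := Finset.sum_nonneg fun p _ => by positivity

lemma sP_le : ∃ C : ℝ, ∀ z : ℕ, 2 ≤ z → sP z ≤ Real.log (Real.log (z + 1 : ℕ)) + C := by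
  obtain ⟨C, hC0, hC⟩ := Vale.Agent.P013.mertens_two
  refine ⟨C / Real.log (2 : ℕ) - Real.log (Real.log (2 : ℕ)), fun z hz => ?_⟩
  have h := hC 2 (z + 1) le_rfl (by omega)
  have : PP z = (Ico 2 (z + 1)).filter Nat.Prime := by
    ext p; rw [mem_PP]; simp only [mem_filter, mem_Ico]; constructor
    · rintro ⟨a, b⟩; exact ⟨⟨a.two_le, by omega⟩, a⟩
    · rintro ⟨a, b⟩; exact ⟨b, by omega⟩
  unfold sP; rw [this]; linarith

lemma small (t : ℕ) (c : ℝ) (B : ℕ) (hB : 1 ≤ B) :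
    ∀ᶠ N : ℕ in atTop, c * Real.exp (t * sP (zz B N)) ≤ Real.log N := by
  obtain ⟨C, hC⟩ := sP_le
  filter_upwards [tL.eventually (ev_logpow (|c| * Real.exp (t * C) * (B + 1) ^ t) t), ev_ge 3,
    zz_ge B hB 2] with N h h3 hz
  set L := Real.log N with hL
  have hL0 : 0 < L := by linarith
  have h1 := hC _ hz
  have hz2 : (2 : ℝ) ≤ zz B N := by exact_mod_cast hz
  have h2 : ((zz B N + 1 : ℕ) : ℝ) ≤ L ^ (B + 1) := by
    push_cast
    have := zz_le B N
    rw [pow_succ]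
    nlinarith
  have h4 : 0 < Real.log (zz B N + 1 : ℕ) := Real.log_pos (by push_cast; linarith)
  have h5 : Real.log (zz B N + 1 : ℕ) ≤ (B + 1) * Real.log L := by
    have := Real.log_le_log (by positivity) h2
    rw [Real.log_pow] at this
    push_cast at this ⊢
    exact this
  calc c * Real.exp (t * sP (zz B N)) ≤ |c| * Real.exp (t * (Real.log (Real.log (zz B N + 1 : ℕ)) + C)) := by
        gcongr; exact le_abs_self c
    _ = |c| * Real.exp (t * C) * (Real.log (zz B N + 1 : ℕ)) ^ t := by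
        rw [mul_add, Real.exp_add, Real.exp_nat_mul, Real.exp_log h4]; ring
    _ ≤ |c| * Real.exp (t * C) * ((B + 1) * Real.log L) ^ t := by gcongr
    _ = |c| * Real.exp (t * C) * (B + 1) ^ t * Real.log L ^ t := by rw [mul_pow]; ring
    _ ≤ L := h

lemma exp_le_one_sub {x : ℝ} (h0 : 0 ≤ x) (h : x ≤ 1 / 2) : Real.exp (-(2 * x)) ≤ 1 - x := by
  rw [Real.exp_neg, inv_le_comm₀ (Real.exp_pos _) (by linarith), inv_eq_one_div,
    div_le_iff₀ (by linarith)]
  nlinarith [Real.add_one_le_exp (2 * x)]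

lemma prod_ge (P : Finset ℕ) (x : ℕ → ℝ) (hx : ∀ p ∈ P, 0 ≤ x p ∧ x p ≤ 1 / 2) :
    Real.exp (-(2 * ∑ p ∈ P, x p)) ≤ ∏ p ∈ P, (1 - x p) := by
  rw [Finset.mul_sum, ← Finset.sum_neg_distrib, Real.exp_sum]
  exact Finset.prod_le_prod (fun p _ => (Real.exp_pos _).le)
    fun p hp => exp_le_one_sub (hx p hp).1 (hx p hp).2

lemma inv_le_half {z p : ℕ} (hp : p ∈ PP z) : 0 ≤ 1 / (p : ℝ) ∧ 1 / (p : ℝ) ≤ 1 / 2 := by
  have : (2 : ℝ) ≤ p := by exact_mod_cast (mem_PP.1 hp).1.two_le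
  exact ⟨by positivity, one_div_le_one_div_of_le (by norm_num) this⟩

lemma wt_le (z : ℕ) : wt z ≤ Real.exp (2 * sP z) := by
  unfold wt
  rw [Finset.prod_inv_distrib, inv_le_comm₀ (Finset.prod_pos fun p hp => by
    linarith [(inv_le_half hp).2]) (Real.exp_pos _), ← Real.exp_neg]
  exact prod_ge _ _ fun p hp => inv_le_half hp

lemma one_le_wt (z : ℕ) : 1 ≤ wt z := by
  unfold wt
  calc (1 : ℝ) = ∏ p ∈ PP z, (1 : ℝ) := by simp
    _ ≤ _ := Finset.prod_le_prod (fun _ _ => zero_le_one) fun p hp =>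
      (one_le_inv₀ (by linarith [(inv_le_half hp).2])).2 (by linarith [(inv_le_half hp).1])

lemma wt_ev (B : ℕ) (hB : 1 ≤ B) : ∀ᶠ N : ℕ in atTop, wt (zz B N) ≤ Real.log N := by
  filter_upwards [small 2 1 B hB] with N h
  refine (wt_le _).trans ?_
  simpa using h

end Vale.Agent.P027P
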