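import Vale.Agent.P027P.AP

/-! Major arcs, minor arcs of the model, and the uniform Fourier estimate. -/

set_option linter.all false

namespace Vale.Agent.P027P

open Finset Real Filter ArithmeticFunction
open Vale.Agent.P013.J (e)
open Vale.Agent.P013.J.Ntl (norm_e e_add e_congr e_sub_le)

lemma major (f : ℕ → ℝ) (N q : ℕ) (a : ℤ) (α E : ℝ) (hq : 1 ≤ q)
    (H : ∀ x c : ℕ, x ≤ N + 1 → c < q → |∑ n ∈ (range x).filter (fun n => n % q = c), f n| ≤ E) :
    ‖∑ n ∈ range (N + 1), (f n : ℂ) * e (n * α)‖ ≤ q * E * (1 + 2 * π * |α - a / q| * N) := by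
  have hq0 : (q : ℝ) ≠ 0 := by exact_mod_cast (by omega : q ≠ 0)
  set β := α - a / q with hβ
  set g : ℕ → ℂ := fun n => (f n : ℂ) * e (n * (a / q)) with hg
  have hG : ∀ x, x ≤ N + 1 → ‖∑ n ∈ range x, g n‖ ≤ q * E := by
    intro x hx
    rw [← Finset.sum_fiberwise_of_maps_to (s := range x) (t := range q) (g := fun n => n % q)
      (fun n _ => Finset.mem_range.2 (Nat.mod_lt _ (by omega)))]
    refine (norm_sum_le _ _).trans ?_
    calc _ ≤ ∑ c ∈ range q, E := Finset.sum_le_sum fun c hc => ?_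
      _ = q * E := by simp
    have : ∑ n ∈ (range x).filter (fun n => n % q = c), g n =
        ((∑ n ∈ (range x).filter (fun n => n % q = c), f n : ℝ) : ℂ) * e (c * (a / q)) := by
      push_cast
      rw [Finset.sum_mul]
      refine Finset.sum_congr rfl fun n hn => ?_
      simp only [hg]
      congr 1
      refine e_congr ((n / q : ℕ) * a) ?_
      have h1 : (n : ℝ) = c + q * (n / q : ℕ) := by
        rw [← (mem_filter.1 hn).2]; exact_mod_cast (Nat.mod_add_div n q).symm
      rw [Int.cast_mul, Int.cast_natCast]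
      generalize ((n / q : ℕ) : ℝ) = k at h1
      rw [h1]; field_simp; ring
    rw [this, norm_mul, norm_e, mul_one, Complex.norm_real, Real.norm_eq_abs]
    exact H x c hx (Finset.mem_range.1 hc)
  have h1 : ∑ n ∈ range (N + 1), (f n : ℂ) * e (n * α) =
      ∑ n ∈ range (N + 1), e (n * β) • g n := by
    refine Finset.sum_congr rfl fun n _ => ?_
    simp only [hg, smul_eq_mul]
    rw [mul_left_comm, ← e_add]
    congr 2
    rw [hβ]; ring
  rw [h1, Finset.sum_range_by_parts (fun n : ℕ => e (n * β)) g (N + 1), Nat.add_sub_cancel]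
  refine (norm_sub_le _ _).trans ?_
  have h2 : ‖e (N * β) • ∑ i ∈ range (N + 1), g i‖ ≤ q * E := by
    rw [norm_smul, norm_e, one_mul]; exact hG _ le_rfl
  have h3 : ‖∑ i ∈ range N, (e ((i + 1 : ℕ) * β) - e (i * β)) • ∑ j ∈ range (i + 1), g j‖ ≤
      ∑ i ∈ range N, 2 * π * |β| * (q * E) := by
    refine (norm_sum_le _ _).trans (Finset.sum_le_sum fun i hi => ?_)
    rw [norm_smul]
    refine mul_le_mul ?_ (hG _ (by have := Finset.mem_range.1 hi; omega)) (norm_nonneg _)
      (by positivity)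
    refine (e_sub_le _ _).trans (le_of_eq ?_)
    congr 2; push_cast; ring
  rw [Finset.sum_const, Finset.card_range, nsmul_eq_mul] at h3
  calc _ ≤ q * E + N * (2 * π * |β| * (q * E)) := add_le_add h2 h3
    _ = _ := by ring

lemma kk_nonneg {T : ℝ} (hT : 0 ≤ T) (β : ℝ) : 0 ≤ kk T β := by
  unfold kk; positivity

lemma sum_dvd (geo : Geo) (N d : ℕ) (hd : 0 < d) (α : ℝ) :
    ‖∑ n ∈ Icc 1 N, ((if d ∣ n then (1 : ℝ) else 0 : ℝ) : ℂ) * e (n * α)‖ ≤
      kk ((N : ℝ) / d) (d * α) := by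
  have h1 : ∑ n ∈ Icc 1 N, ((if d ∣ n then (1 : ℝ) else 0 : ℝ) : ℂ) * e (n * α) =
      ∑ n ∈ (Icc 1 N).filter (fun n => d ∣ n), e (n * α) := by
    rw [Finset.sum_filter]
    refine Finset.sum_congr rfl fun n _ => ?_
    split_ifs <;> simp
  have h2 : ∑ m ∈ Ioc 0 (N / d), e (m * (d * α)) =
      ∑ n ∈ (Icc 1 N).filter (fun n => d ∣ n), e (n * α) := by
    refine Finset.sum_nbij' (fun m => d * m) (fun n => n / d) ?_ ?_ ?_ ?_ ?_
    · intro m hm
      simp only [mem_filter, mem_Icc, mem_Ioc] at hm ⊢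
      have := (Nat.le_div_iff_mul_le hd).1 hm.2
      exact ⟨⟨Nat.mul_pos hd hm.1, by rw [mul_comm]; exact this⟩, Dvd.intro _ rfl⟩
    · intro n hn
      simp only [mem_filter, mem_Icc, mem_Ioc] at hn ⊢
      exact ⟨Nat.div_pos (Nat.le_of_dvd hn.1.1 hn.2) hd, Nat.div_le_div_right hn.1.2⟩
    · intro m _
      exact Nat.mul_div_cancel_left _ hd
    · intro n hn
      exact Nat.mul_div_cancel' (mem_filter.1 hn).2
    · intro m _
      congr 1; push_cast; ring
  rw [h1, ← h2]
  refine geo _ _ 0 (N / d) ?_ (by positivity)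
  rw [Nat.cast_zero, sub_zero]
  exact Nat.cast_div_le

lemma EE_nonneg (K : ℕ) (P : Finset ℕ) (x : ℕ → ℝ) (hx : ∀ p ∈ P, 0 ≤ x p) : 0 ≤ EE K P x :=
  Finset.sum_nonneg fun S hS => by
    split_ifs
    · exact Finset.prod_nonneg fun p hp => hx p (Finset.mem_powerset.1 hS hp)
    · exact le_rfl

lemma model_typeI (geo : Geo) (N z K : ℕ) (hz : 1 ≤ z) (α : ℝ) :
    ‖∑ n ∈ Icc 1 N, (md z n : ℂ) * e (n * α)‖ ≤ wt z * (∑ d ∈ Icc 1 (z ^ K),
      kk ((N : ℝ) / d) (d * α) + exp (2 * sP z) * ((N + 1 : ℕ) / 2 ^ K + (z : ℝ) ^ K)) := by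
  set b : ℕ → ℕ → ℝ := fun p n => if p ∣ n then 1 else 0 with hb
  have h1 : ∀ n, md z n = wt z * ∏ p ∈ PP z, (1 - b p n) := by
    intro n
    simp only [hb]
    rw [prod_ind (PP z) (fun p => p ∣ n)]
    unfold md
    split_ifs <;> simp
  have h2 : ∀ p ∈ PP z, dn b p = 1 / (p : ℝ) := by
    intro p hp
    have := cnt_one p 1 0 (mem_PP.1 hp).1 (by simpa using (mem_PP.1 hp).1.one_lt.ne')
    unfold dn
    simp only [hb]
    simp only [zero_add, one_mul] at this
    rw [this]
  have h3 := sum_EE b (PP z) z K (N + 1) hz (fun p hp => ⟨(mem_PP.1 hp).1, (mem_PP.1 hp).2,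
    fun s => by simp only [hb, Nat.dvd_add_self_right], fun s => ind_mem _⟩)
  rw [Finset.sum_congr rfl h2] at h3
  have hw : 0 ≤ wt z := by linarith [one_le_wt z]
  have h4 : ∑ n ∈ Icc 1 N, (md z n : ℂ) * e (n * α) = (wt z : ℂ) *
      (∑ n ∈ Icc 1 N, (AA K (PP z) (fun p => b p n) : ℂ) * e (n * α) +
      ∑ n ∈ Icc 1 N, ((∏ p ∈ PP z, (1 - b p n) - AA K (PP z) (fun p => b p n) : ℝ) : ℂ) *
        e (n * α)) := by
    rw [← Finset.sum_add_distrib, Finset.mul_sum]
    refine Finset.sum_congr rfl fun n _ => ?_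
    rw [h1, Complex.ofReal_mul, Complex.ofReal_sub]; ring
  rw [h4, norm_mul, Complex.norm_real, Real.norm_of_nonneg hw]
  refine mul_le_mul_of_nonneg_left ((norm_add_le _ _).trans (add_le_add ?_ ?_)) hw
  · set T := (PP z).powerset.filter (fun S => S.card < K) with hT
    have hpr : ∀ S ∈ T, ∀ p ∈ S, p.Prime ∧ p ≤ z := fun S hS p hp =>
      mem_PP.1 (Finset.mem_powerset.1 (mem_filter.1 hS).1 hp)
    have h5 : ∑ n ∈ Icc 1 N, (AA K (PP z) (fun p => b p n) : ℂ) * e (n * α) =
        ∑ S ∈ T, (-1) ^ S.card *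
          ∑ n ∈ Icc 1 N, ((if (∏ p ∈ S, p) ∣ n then (1 : ℝ) else 0 : ℝ) : ℂ) * e (n * α) := by
      simp only [Finset.mul_sum]
      rw [Finset.sum_comm]
      refine Finset.sum_congr rfl fun n _ => ?_
      unfold AA
      rw [← Finset.sum_filter, ← hT, Complex.ofReal_sum, Finset.sum_mul]
      refine Finset.sum_congr rfl fun S hS => ?_
      have : ∏ p ∈ S, b p n = if (∏ p ∈ S, p) ∣ n then (1 : ℝ) else 0 := by
        simp only [hb]
        rw [Finset.prod_boole]
        refine if_congr ⟨fun h => Finset.prod_primes_dvd n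
          (fun p hp => (hpr S hS p hp).1.prime) h, fun h p hp =>
          (Finset.dvd_prod_of_mem (fun p => p) hp).trans h⟩ rfl rfl
      rw [this]; push_cast; ring
    rw [h5]
    calc _ ≤ ∑ S ∈ T, kk ((N : ℝ) / (∏ p ∈ S, p : ℕ)) ((∏ p ∈ S, p : ℕ) * α) := by
          refine (norm_sum_le _ _).trans (Finset.sum_le_sum fun S hS => ?_)
          rw [norm_mul, norm_pow, norm_neg, norm_one, one_pow, one_mul]
          exact sum_dvd geo N _ (Finset.prod_pos fun p hp => (hpr S hS p hp).1.pos) α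
      _ = ∑ d ∈ T.image (fun S => ∏ p ∈ S, p), kk ((N : ℝ) / d) (d * α) := by
          rw [Finset.sum_image]
          intro S hS S' hS' h
          have := congrArg Nat.primeFactors h
          simp only at this
          rwa [Nat.primeFactors_prod (fun p hp => (hpr S hS p hp).1),
            Nat.primeFactors_prod (fun p hp => (hpr S' hS' p hp).1)] at this
      _ ≤ _ := by
          refine Finset.sum_le_sum_of_subset_of_nonneg ?_ fun d _ _ => kk_nonneg (by positivity) _
          intro d hd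
          obtain ⟨S, hS, rfl⟩ := Finset.mem_image.1 hd
          exact Finset.mem_Icc.2 ⟨Finset.prod_pos fun p hp => (hpr S hS p hp).1.pos,
            (Finset.prod_le_pow_card S _ z fun p hp => (hpr S hS p hp).2).trans
              (Nat.pow_le_pow_right hz (mem_filter.1 hS).2.le)⟩
  · refine le_trans ?_ h3
    calc _ ≤ ∑ n ∈ Icc 1 N, EE K (PP z) (fun p => b p n) := by
          refine (norm_sum_le _ _).trans (Finset.sum_le_sum fun n _ => ?_)
          rw [norm_mul, norm_e, mul_one, Complex.norm_real, Real.norm_eq_abs]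
          exact bonf _ _ (fun p _ => ind_mem _) K
      _ ≤ _ := Finset.sum_le_sum_of_subset_of_nonneg
          (fun n hn => Finset.mem_range.2 (by have := Finset.mem_Icc.1 hn; omega))
          fun n _ _ => EE_nonneg _ _ _ fun p _ => (ind_mem _).1

lemma md_zero {z : ℕ} (hz : 2 ≤ z) : md z 0 = 0 := by
  unfold md
  rw [if_neg]
  intro h
  exact h 2 (mem_PP.2 ⟨Nat.prime_two, hz⟩) (dvd_zero 2)

theorem fourier_of (geo : Geo) (vino : Vino) (minor : Minor) : Fourier := by
  intro A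
  obtain ⟨C₁, hC₁, hV⟩ := vino
  obtain ⟨C₂, c, hC₂, hM⟩ := minor
  set B' := A + c + 4 with hB'
  set B := 2 * B' with hB
  have hB1 : 1 ≤ B := by omega
  suffices h : ∀ᶠ N : ℕ in atTop, ∀ α : ℝ,
      ‖∑ n ∈ Icc 1 N, ((th n - md (zz B N) n : ℝ) : ℂ) * e (n * α)‖ ≤ N / Real.log N ^ A by
    obtain ⟨N₀, h⟩ := eventually_atTop.1 h
    exact ⟨B, N₀, hB1, h⟩
  filter_upwards [tap B (A + 2 * B + 1), map B (A + 2 * B + 1) hB1, ev_D B,
    ev_ge (16 + 3 * C₁ + 3 * C₂), eventually_ge_atTop 2, par_ev B B', wt_ev B hB1,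
    small 2 1 B hB1, zz_ge B hB1 2, ev_pow 1 B' (1 / 10) (by norm_num)] with
    N htap hmap hD hL16 hN ⟨K, hK1, hK2⟩ hwt hsm hz2 hp10
  intro α
  set L := Real.log N with hL
  set z := zz B N with hz
  have hL1 : 16 ≤ L := by linarith
  have hL0 : 0 < L := by linarith
  have hN1 : (2 : ℝ) ≤ N := by exact_mod_cast hN
  have hN0 : (0 : ℝ) < N := by linarith
  have hs1 : (1 : ℝ) ≤ √N := Real.one_le_sqrt.2 (by linarith)
  set R := L ^ B with hR
  have hR1 : 1 ≤ R := one_le_pow₀ (by linarith)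
  have hn0 : 0 < ⌊(N : ℝ) / R⌋₊ := Nat.floor_pos.2 (hs1.trans hD)
  obtain ⟨r, hr1, hr2⟩ := Real.exists_rat_abs_sub_le_and_den_le α hn0
  have hq1 : 1 ≤ r.den := r.den_pos
  have hq1' : (1 : ℝ) ≤ r.den := by exact_mod_cast hq1
  have hrq : (r : ℝ) = r.num / r.den := Rat.cast_def r
  have hn1 : (N : ℝ) / R < ⌊(N : ℝ) / R⌋₊ + 1 := Nat.lt_floor_add_one _
  have hn2 : (r.den : ℝ) ≤ N / R :=
    le_trans (by exact_mod_cast hr2) (Nat.floor_le (by positivity))
  rw [hrq] at hr1
  set q := r.den with hq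
  set a := r.num with ha
  by_cases hqz : q ≤ z
  · have h0 : ∑ n ∈ Icc 1 N, ((th n - md z n : ℝ) : ℂ) * e (n * α) =
        ∑ n ∈ range (N + 1), ((th n - md z n : ℝ) : ℂ) * e (n * α) := by
      refine Finset.sum_subset
        (fun n hn => Finset.mem_range.2 (by have := Finset.mem_Icc.1 hn; omega)) ?_
      intro n hn hn'
      have : n = 0 := by
        have := Finset.mem_range.1 hn
        rw [Finset.mem_Icc] at hn'
        omega
      rw [this, md_zero hz2]; simp [th]
    rw [h0]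
    have h1 := major (fun n => th n - md z n) N q a α (2 * (N / L ^ (A + 2 * B + 1))) hq1
      (fun x c hx hc => by
        have a1 := abs_le.1 (htap x q c hx hq1 hqz hc)
        have a2 := abs_le.1 (hmap x q c hx hq1 hqz hc)
        rw [Finset.sum_sub_distrib, abs_le]
        constructor <;> linarith [a1.1, a1.2, a2.1, a2.2])
    refine h1.trans ?_
    have h2 : |α - a / q| * N ≤ R := by
      have a1 : |α - a / q| ≤ R / N := by
        refine hr1.trans ?_
        rw [div_le_div_iff₀ (by positivity) hN0]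
        rw [div_lt_iff₀ (by linarith)] at hn1
        have : R * ((⌊(N : ℝ) / R⌋₊ : ℝ) + 1) ≤ R * (((⌊(N : ℝ) / R⌋₊ : ℝ) + 1) * q) := by
          gcongr
          exact le_mul_of_one_le_right (by positivity) hq1'
        linarith
      rwa [le_div_iff₀ hN0] at a1
    have h3 : 1 + 2 * π * |α - a / q| * N ≤ 8 * R := by
      have : 2 * π * (|α - a / q| * N) ≤ 2 * 3.15 * R := by
        gcongr; exact Real.pi_lt_d2.le
      nlinarith
    have h4 : (q : ℝ) ≤ R := le_trans (by exact_mod_cast hqz) (zz_le B N)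
    calc (q : ℝ) * (2 * (N / L ^ (A + 2 * B + 1))) * (1 + 2 * π * |α - a / q| * N)
        ≤ R * (2 * (N / L ^ (A + 2 * B + 1))) * (8 * R) := by gcongr
      _ = (16 / L) * (N / L ^ A) := by
          rw [hR, pow_succ, pow_add, two_mul B, pow_add]; field_simp; norm_num
      _ ≤ 1 * (N / L ^ A) := by
          gcongr; rwa [div_le_one hL0]
      _ = _ := one_mul _
  · set D := (N : ℝ) / L ^ B' with hDdef
    have hRq : R ≤ q := by
      have : z + 1 ≤ q := by omega
      exact (lt_zz B N).le.trans (by exact_mod_cast this)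
    have hRR : R = L ^ B' * L ^ B' := by rw [hR, hB, two_mul, pow_add]
    have hP1 : 1 ≤ L ^ B' := one_le_pow₀ (by linarith)
    have hP0 : 0 < L ^ B' := by linarith
    have hNR : (N : ℝ) / R ≤ D := by
      rw [hDdef]; gcongr; rw [hRR]; exact le_mul_of_one_le_right hP0.le hP1
    have hqN : q ≤ N := by
      have : (q : ℝ) ≤ N := hn2.trans (div_le_self hN0.le hR1)
      exact_mod_cast this
    have hcop : IsCoprime a (q : ℤ) := Int.isCoprime_iff_gcd_eq_one.2 r.reduced
    have hclose : |α - a / q| ≤ 1 / (q : ℝ) ^ 2 := by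
      refine hr1.trans (one_div_le_one_div_of_le (by positivity) ?_)
      have : (q : ℝ) ≤ ⌊(N : ℝ) / R⌋₊ := by exact_mod_cast hr2
      rw [sq]; gcongr; linarith
    have hsD : √(N : ℝ) ≤ D := hD.trans hNR
    have hD0 : 0 < D := by linarith
    have e1 : (N : ℝ) / √q ≤ D := by
      rw [hDdef]; gcongr
      exact Real.le_sqrt_of_sq_le (by rw [sq, ← hRR]; exact hRq)
    have e2 : (N : ℝ) ^ (9 / 10 : ℝ) ≤ D := by
      rw [hDdef, le_div_iff₀ hP0]
      calc (N : ℝ) ^ (9 / 10 : ℝ) * L ^ B' ≤ (N : ℝ) ^ (9 / 10 : ℝ) * (N : ℝ) ^ (1 / 10 : ℝ) := by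
            gcongr; linarith
        _ = N := by rw [← Real.rpow_add hN0]; norm_num
    have e3 : √((N : ℝ) * q) ≤ D := by
      rw [Real.sqrt_le_left hD0.le, hDdef, div_pow, sq, sq, ← hRR, mul_div_assoc]
      gcongr
    have e4 : (N : ℝ) / q ≤ D := le_trans (by gcongr) hNR
    have e5 : (q : ℝ) ≤ D := hn2.trans hNR
    have e6 : (z : ℝ) ^ K ≤ √N := le_trans (le_mul_of_one_le_right (by positivity) hP1) hK2
    have e7 : ((N + 1 : ℕ) : ℝ) / 2 ^ K ≤ 2 * D := by
      rw [hDdef, ← mul_div_assoc]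
      refine div_le_div₀ (by positivity) (by push_cast; linarith) hP0 hK1
    have hzN : z ^ K ≤ N := by
      have : (z : ℝ) ^ K ≤ N := e6.trans (sqrt_le_self (by omega))
      exact_mod_cast this
    have m1 := hM α a N q hN hq1 hqN hcop hclose
    have m2 := hV α a N (z ^ K) q hN hzN hq1 hqN hcop hclose
    have m3 := model_typeI geo N z K (by omega) α
    have m4 : ‖∑ n ∈ Icc 1 N, ((vonMangoldt n - th n : ℝ) : ℂ) * e (n * α)‖ ≤ 2 * √N * L := by
      refine (norm_sum_le _ _).trans (le_trans (Finset.sum_le_sum fun n _ => ?_)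
        (sum_lam_sub N (by omega)))
      rw [norm_mul, norm_e, mul_one, Complex.norm_real,
        Real.norm_of_nonneg (by linarith [th_le_lam n])]
    have h0 : ∑ n ∈ Icc 1 N, ((th n - md z n : ℝ) : ℂ) * e (n * α) =
        ∑ n ∈ Icc 1 N, (vonMangoldt n : ℂ) * e (n * α) -
        ∑ n ∈ Icc 1 N, ((vonMangoldt n - th n : ℝ) : ℂ) * e (n * α) -
        ∑ n ∈ Icc 1 N, (md z n : ℂ) * e (n * α) := by
      rw [← Finset.sum_sub_distrib, ← Finset.sum_sub_distrib]
      refine Finset.sum_congr rfl fun n _ => ?_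
      push_cast; ring
    rw [h0]
    set W := L ^ (c + 3) with hW
    have w1 : L ^ c ≤ W := pow_le_pow_right₀ (by linarith) (by omega)
    have w2 : L ^ 3 ≤ W := pow_le_pow_right₀ (by linarith) (by omega)
    have w3 : L ^ 2 ≤ W := pow_le_pow_right₀ (by linarith) (by omega)
    have w4 : L ≤ W := le_self_pow₀ (by linarith) (by omega)
    have f1 : ‖∑ n ∈ Icc 1 N, (vonMangoldt n : ℂ) * e (n * α)‖ ≤ C₂ * (D + D + D) * W :=
      m1.trans (by gcongr)
    have f2 : ‖∑ n ∈ Icc 1 N, ((vonMangoldt n - th n : ℝ) : ℂ) * e (n * α)‖ ≤ 2 * D * W :=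
      m4.trans (by gcongr)
    have g1 : ∑ d ∈ Icc 1 (z ^ K), kk ((N : ℝ) / d) (d * α) ≤ C₁ * (D + D + D) * L ^ 2 := by
      refine m2.trans ?_
      push_cast
      gcongr
      exact e6.trans hsD
    have g2 : exp (2 * sP z) ≤ L := by simpa using hsm
    have f3 : ‖∑ n ∈ Icc 1 N, (md z n : ℂ) * e (n * α)‖ ≤ (3 * C₁ + 3) * D * W := by
      refine m3.trans ?_
      have hw : 0 ≤ wt z := by linarith [one_le_wt z]
      calc _ ≤ L * (C₁ * (D + D + D) * L ^ 2 + L * (2 * D + D)) := by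
            gcongr
            · exact add_nonneg (Finset.sum_nonneg fun d _ => kk_nonneg (by positivity) _)
                (by positivity)
            · exact e6.trans hsD
        _ = 3 * C₁ * D * L ^ 3 + 3 * D * L ^ 2 := by ring
        _ ≤ 3 * C₁ * D * W + 3 * D * W := by gcongr
        _ = _ := by ring
    have hgoal : (N : ℝ) / L ^ A = L * (D * W) := by
      rw [hDdef, hW, hB', show A + c + 4 = A + (c + 3) + 1 by ring, pow_succ, pow_add]
      field_simp
    rw [hgoal]
    have hDW : 0 < D * W := by positivity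
    calc _ ≤ C₂ * (D + D + D) * W + 2 * D * W + (3 * C₁ + 3) * D * W :=
          (norm_sub_le _ _).trans (add_le_add ((norm_sub_le _ _).trans (add_le_add f1 f2)) f3)
      _ = (5 + 3 * C₁ + 3 * C₂) * (D * W) := by ring
      _ ≤ L * (D * W) := by gcongr; linarith

end Vale.Agent.P027P
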