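import Vale.Agent.P013.Bdl.B6

/-! Prime patterns of complexity one: definitions and statements of the blocks. -/

set_option linter.all false

namespace Vale.Agent.P027P

open Finset Real
open Vale.Agent.P013.J (e)

/-- logarithmic weight of the primes -/
noncomputable def th (n : ℕ) : ℝ := if n.Prime then Real.log n else 0

/-- the primes up to `z` -/
def PP (z : ℕ) : Finset ℕ := (range (z + 1)).filter Nat.Prime

/-- normalising factor of the model -/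
noncomputable def wt (z : ℕ) : ℝ := ∏ p ∈ PP z, (1 - 1 / (p : ℝ))⁻¹

/-- the model: normalised indicator of the numbers without prime factor up to `z` -/
noncomputable def md (z n : ℕ) : ℝ := if ∀ p ∈ PP z, ¬ p ∣ n then wt z else 0

/-- smooth form of the minimum of `T` and the inverse distance to the integers -/
noncomputable def kk (T β : ℝ) : ℝ := 2 * T / (1 + 2 * T * |β - round β|)

/-- geometric sums -/
def Geo : Prop := ∀ (T β : ℝ) (u v : ℕ), (v : ℝ) - u ≤ T → 0 ≤ T →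
  ‖∑ m ∈ Ioc u v, e (m * β)‖ ≤ kk T β

/-- lemma of Vinogradov, block form -/
def VinoB : Prop := ∃ C : ℝ, 0 < C ∧ ∀ (T α : ℝ) (h₀ a : ℤ) (H q : ℕ), 0 ≤ T → 1 ≤ q →
  IsCoprime a (q : ℤ) → |α - a / q| ≤ 1 / (q : ℝ) ^ 2 →
  ∑ h ∈ range H, kk T (((h₀ + h : ℤ) : ℝ) * α) ≤
    C * ((H : ℝ) / q + 1) * (T + q * (1 + Real.log q))

/-- lemma of Vinogradov, hyperbolic form -/
def Vino : Prop := ∃ C : ℝ, 0 < C ∧ ∀ (α : ℝ) (a : ℤ) (N D q : ℕ), 2 ≤ N → D ≤ N → 1 ≤ q →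
  q ≤ N → IsCoprime a (q : ℤ) → |α - a / q| ≤ 1 / (q : ℝ) ^ 2 →
  ∑ d ∈ Icc 1 D, kk ((N : ℝ) / d) (d * α) ≤ C * ((N : ℝ) / q + D + q) * Real.log N ^ 2

/-- exponential sums over primes, estimate of Vinogradov and Vaughan -/
def Minor : Prop := ∃ (C : ℝ) (c : ℕ), 0 < C ∧ ∀ (α : ℝ) (a : ℤ) (N q : ℕ), 2 ≤ N → 1 ≤ q →
  q ≤ N → IsCoprime a (q : ℤ) → |α - a / q| ≤ 1 / (q : ℝ) ^ 2 →
  ‖∑ n ∈ Icc 1 N, (ArithmeticFunction.vonMangoldt n : ℂ) * e (n * α)‖ ≤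
    C * ((N : ℝ) / √q + (N : ℝ) ^ (9 / 10 : ℝ) + √(N * q)) * Real.log N ^ c

/-- the model approximates the primes uniformly on the Fourier side -/
def Fourier : Prop := ∀ A : ℕ, ∃ B N₀ : ℕ, 1 ≤ B ∧ ∀ N : ℕ, N₀ ≤ N → ∀ α : ℝ,
  ‖∑ n ∈ Icc 1 N, ((th n - md ⌊Real.log N ^ B⌋₊ n : ℝ) : ℂ) * e (n * α)‖ ≤ N / Real.log N ^ A

/-- generalised von Neumann inequality for systems of complexity one -/
def VN : Prop := ∀ (M : ℕ) [Fact M.Prime] (V ι : Type) [AddCommGroup V] [Module (ZMod M) V]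
  [Fintype V] [Fintype ι] [DecidableEq ι] (ψ : ι → V →ₗ[ZMod M] ZMod M) (f : ι → ZMod M → ℂ)
  (i : ι) (h₁ h₂ : V) (η B : ℝ), 0 ≤ B → ψ i h₁ ≠ 0 → ψ i h₂ ≠ 0 →
  (∀ j, j ≠ i → ψ j h₁ = 0 ∨ ψ j h₂ = 0) → (∀ j, j ≠ i → ∀ y, ‖f j y‖ ≤ B) →
  (∀ ξ : ZMod M, ‖∑ y : ZMod M, f i y * e ((y.val : ℝ) * ((ξ.val : ℝ) / M))‖ ≤ η) →
  ‖∑ x : V, ∏ j, f j (ψ j x)‖ ≤ (Fintype.card V : ℝ) / M * η * B ^ (Fintype.card ι - 1)

end Vale.Agent.P027P
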