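import Vale.Agent.P027P.Four

/-! Prime values of systems of linear forms of complexity one. -/

set_option linter.all false

namespace Vale.Agent.P027P

open Finset Real Filter
open Vale.Agent.P013.J (e)
open Vale.Agent.P013.J.Ntl (norm_e e_add geom_e)

lemma cls (g : ℕ → ℝ) (N m c : ℕ) (hm : 0 < m) (η : ℝ)
    (H : ∀ α : ℝ, ‖∑ n ∈ Icc 1 N, (g n : ℂ) * e (n * α)‖ ≤ η) (α : ℝ) :
    ‖∑ n ∈ Icc 1 N, (if n ≡ c [MOD m] then (g n : ℂ) else 0) * e (n * α)‖ ≤ η := by
  have hm' : (m : ℂ) ≠ 0 := by exact_mod_cast hm.ne'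
  have hmR : (0 : ℝ) < m := by exact_mod_cast hm
  have h1 : (m : ℂ) * ∑ n ∈ Icc 1 N, (if n ≡ c [MOD m] then (g n : ℂ) else 0) * e (n * α) =
      ∑ b ∈ range m, e (c * b / m) * ∑ n ∈ Icc 1 N, (g n : ℂ) * e (n * (α - b / m)) := by
    simp only [Finset.mul_sum]
    rw [Finset.sum_comm]
    refine Finset.sum_congr rfl fun n _ => ?_
    have h2 := geom_e ((c : ℤ) - n) m hm
    have h3 : ∑ b ∈ range m, e (c * b / m) * ((g n : ℂ) * e (n * (α - b / m))) =
        (∑ b ∈ range m, e ((((c : ℤ) - n : ℤ) : ℝ) * b / m)) * ((g n : ℂ) * e (n * α)) := by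
      rw [Finset.sum_mul]
      refine Finset.sum_congr rfl fun b _ => ?_
      rw [mul_left_comm, mul_left_comm _ (g n : ℂ), ← e_add, ← e_add]
      congr 2; push_cast; ring
    rw [h3, h2]
    simp only [Nat.modEq_iff_dvd]
    split_ifs <;> simp
  have h4 : ‖(m : ℂ) * ∑ n ∈ Icc 1 N, (if n ≡ c [MOD m] then (g n : ℂ) else 0) * e (n * α)‖ ≤
      m * η := by
    rw [h1]
    refine (norm_sum_le _ _).trans ?_
    calc _ ≤ ∑ b ∈ range m, η := Finset.sum_le_sum fun b _ => by
          rw [norm_mul, norm_e, one_mul]; exact H _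
      _ = m * η := by simp
  rw [norm_mul, Complex.norm_natCast] at h4
  exact le_of_mul_le_mul_left h4 hmR

lemma telescope {ι V Y : Type} [Fintype ι] [DecidableEq ι] [Fintype V] (f g : ι → Y → ℂ)
    (ψ : ι → V → Y) (ε : ℝ)
    (H : ∀ (i : ι) (h : ι → Y → ℂ), (∀ j, j ≠ i → h j = f j ∨ h j = g j) → h i = f i - g i →
      ‖∑ x, ∏ j, h j (ψ j x)‖ ≤ ε) :
    ‖∑ x, ∏ j, f j (ψ j x) - ∑ x, ∏ j, g j (ψ j x)‖ ≤ Fintype.card ι * ε := by
  have key : ∀ U : Finset ι, ‖∑ x, ∏ j, (if j ∈ U then f j else g j) (ψ j x) -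
      ∑ x, ∏ j, g j (ψ j x)‖ ≤ U.card * ε := by
    intro U
    induction U using Finset.induction_on with
    | empty => simp
    | insert i U hi ih =>
      have h1 := H i (fun j => if j = i then f i - g i else if j ∈ U then f j else g j)
        (fun j hj => by simp only [if_neg hj]; split_ifs <;> simp) (by simp)
      have h2 : ∑ x, ∏ j, (if j ∈ insert i U then f j else g j) (ψ j x) =
          ∑ x, ∏ j, (if j = i then f i - g i else if j ∈ U then f j else g j) (ψ j x) +
          ∑ x, ∏ j, (if j ∈ U then f j else g j) (ψ j x) := by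
        rw [← Finset.sum_add_distrib]
        refine Finset.sum_congr rfl fun x _ => ?_
        rw [← Finset.mul_prod_erase univ _ (mem_univ i), ← Finset.mul_prod_erase univ _ (mem_univ i),
          ← Finset.mul_prod_erase univ _ (mem_univ i)]
        have a1 : ∏ j ∈ univ.erase i, (if j ∈ insert i U then f j else g j) (ψ j x) =
            ∏ j ∈ univ.erase i, (if j ∈ U then f j else g j) (ψ j x) :=
          Finset.prod_congr rfl fun j hj => by
            simp only [Finset.mem_insert, (Finset.mem_erase.1 hj).1, false_or]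
        have a2 : ∏ j ∈ univ.erase i,
            (if j = i then f i - g i else if j ∈ U then f j else g j) (ψ j x) =
            ∏ j ∈ univ.erase i, (if j ∈ U then f j else g j) (ψ j x) :=
          Finset.prod_congr rfl fun j hj => by
            simp only [if_neg (Finset.mem_erase.1 hj).1]
        rw [a1, a2, if_pos (Finset.mem_insert_self i U), if_pos rfl, if_neg hi, Pi.sub_apply]
        ring
      rw [h2, add_sub_assoc, Finset.card_insert_of_notMem hi]
      refine (norm_add_le _ _).trans ?_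
      push_cast
      linarith
  simpa using key univ

lemma line {ι : Type} [Fintype ι] (B : ℕ) (hB : 1 ≤ B) (m : ℕ) : ∀ᶠ N : ℕ in atTop,
    ∀ Y : ℕ, √(N : ℝ) ≤ Y → ∀ c q : ι → ℕ,
      (∀ p : ℕ, p.Prime → ¬ p ∣ m → 2 * Fintype.card ι ≤ p ∧ ∀ j, ¬ p ∣ q j) →
      (Y : ℝ) / (2 * Real.log N) ≤ ∑ s ∈ range Y,
        if ∀ p ∈ (PP (zz B N)).filter (fun p => ¬ p ∣ m), ¬ ∃ j, p ∣ c j + q j * s
          then (1 : ℝ) else 0 := by
  filter_upwards [ev_ge 12, par_ev B 3, small (2 * Fintype.card ι) 1 B hB, zz_ge B hB 1] with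
    N h12 ⟨K, hK1, hK2⟩ hsm hz1
  intro Y hY c q hq
  set L := Real.log N with hL
  set z := zz B N with hz
  set t := Fintype.card ι with ht
  set P := (PP z).filter (fun p => ¬ p ∣ m) with hP
  set b : ℕ → ℕ → ℝ := fun p s => if ∃ j, p ∣ c j + q j * s then 1 else 0 with hb
  have hL0 : 0 < L := by linarith
  have h1 : ∀ s, (if ∀ p ∈ P, ¬ ∃ j, p ∣ c j + q j * s then (1 : ℝ) else 0) =
      ∏ p ∈ P, (1 - b p s) := fun s => (prod_ind P (fun p => ∃ j, p ∣ c j + q j * s)).symm
  simp only [h1]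
  have hPp : ∀ p ∈ P, p.Prime ∧ p ≤ z := fun p hp => mem_PP.1 (mem_filter.1 hp).1
  have h2 : ∀ p ∈ P, dn b p ≤ t * (1 / (p : ℝ)) := by
    intro p hp
    unfold dn
    rw [mul_one_div]
    refine div_le_div_of_nonneg_right ?_ (Nat.cast_nonneg p)
    calc ∑ s ∈ range p, b p s ≤ ∑ s ∈ range p, ∑ j, if p ∣ c j + q j * s then (1 : ℝ) else 0 := by
          refine Finset.sum_le_sum fun s _ => ?_
          simp only [hb]
          split_ifs with h
          · obtain ⟨j, hj⟩ := h
            refine le_trans ?_ (Finset.single_le_sum (f := fun j =>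
              if p ∣ c j + q j * s then (1 : ℝ) else 0) (fun j _ => (ind_mem _).1) (mem_univ j))
            simp only [if_pos hj]; exact le_rfl
          · exact Finset.sum_nonneg fun j _ => (ind_mem _).1
      _ = ∑ j : ι, (1 : ℝ) := by
          rw [Finset.sum_comm]
          exact Finset.sum_congr rfl fun j _ => cnt_one p (q j) (c j) (hPp p hp).1
            ((hq p (hPp p hp).1 (mem_filter.1 hp).2).2 j)
      _ = t := by simp [ht]
  have hdn : ∀ p, 0 ≤ dn b p := fun p => (dn_mem b p fun s => ind_mem _).1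
  have h3 : ∀ p ∈ P, 0 ≤ dn b p ∧ dn b p ≤ 1 / 2 := fun p hp => ⟨hdn p, (h2 p hp).trans (by
    have a1 : ((2 * t : ℕ) : ℝ) ≤ p := by exact_mod_cast (hq p (hPp p hp).1 (mem_filter.1 hp).2).1
    have a2 : (0 : ℝ) < p := by exact_mod_cast (hPp p hp).1.pos
    rw [mul_one_div, div_le_iff₀ a2]
    push_cast at a1; linarith)⟩
  have h4 : Real.exp (2 * ∑ p ∈ P, dn b p) ≤ L := by
    refine le_trans ?_ hsm
    rw [one_mul, Real.exp_le_exp]
    have a1 : ∑ p ∈ P, dn b p ≤ t * sP z := by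
      refine (Finset.sum_le_sum h2).trans ?_
      rw [← Finset.mul_sum]
      refine mul_le_mul_of_nonneg_left ?_ (Nat.cast_nonneg t)
      exact Finset.sum_le_sum_of_subset_of_nonneg (Finset.filter_subset _ _)
        fun p _ _ => by positivity
    push_cast; linarith
  have h5 : 1 / L ≤ ∏ p ∈ P, (1 - dn b p) := by
    refine le_trans ?_ (prod_ge P (dn b) h3)
    rw [Real.exp_neg, one_div]
    exact inv_anti₀ (Real.exp_pos _) h4
  have h6 := sieve b P z K Y hz1 (fun p hp => ⟨(hPp p hp).1, (hPp p hp).2, fun s => by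
    simp only [hb]
    refine if_congr (exists_congr fun j => ?_) rfl rfl
    rw [mul_add, ← add_assoc]
    exact Nat.dvd_add_left (Dvd.intro_left (q j) rfl), fun s => ind_mem _⟩)
  have hY0 : (0 : ℝ) ≤ Y := Nat.cast_nonneg Y
  have h7 : (Y : ℝ) / 2 ^ K ≤ Y / L ^ 3 := by gcongr
  have h8 : (z : ℝ) ^ K ≤ Y / L ^ 3 := by
    rw [le_div_iff₀ (by positivity)]; exact hK2.trans hY
  have h9 : 3 * Real.exp (2 * ∑ p ∈ P, dn b p) * (Y / 2 ^ K + (z : ℝ) ^ K) ≤ Y / (2 * L) := by
    calc _ ≤ 3 * L * (Y / L ^ 3 + Y / L ^ 3) := by gcongr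
      _ = (12 / L) * (Y / (2 * L)) := by field_simp; ring
      _ ≤ 1 * (Y / (2 * L)) := by gcongr; rwa [div_le_one hL0]
      _ = _ := one_mul _
  have h10 : (Y : ℝ) * (1 / L) ≤ Y * ∏ p ∈ P, (1 - dn b p) := by gcongr
  have h11 : (Y : ℝ) * (1 / L) = Y / (2 * L) + Y / (2 * L) := by field_simp; norm_num
  linarith [(abs_le.1 (h6.trans h9)).1]

/-- a linear form with natural coefficients -/
def fm {ι κ : Type} [Fintype κ] (A : ι → κ → ℕ) (j : ι) (x : κ → ℕ) : ℕ := ∑ k, A j k * x k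

/-- the same form on integer vectors -/
def fz {ι κ : Type} [Fintype κ] (A : ι → κ → ℕ) (j : ι) (x : κ → ℤ) : ℤ :=
  ∑ k, (A j k : ℤ) * x k

/-- the same form modulo `M` -/
noncomputable def fl {ι κ : Type} [Fintype κ] (A : ι → κ → ℕ) (M : ℕ) (j : ι) :
    (κ → ZMod M) →ₗ[ZMod M] ZMod M := ∑ k, (A j k : ZMod M) • LinearMap.proj k

section
variable {ι κ : Type} [Fintype κ] (A : ι → κ → ℕ)

lemma fl_apply (M : ℕ) (j : ι) (x : κ → ZMod M) : fl A M j x = ∑ k, (A j k : ZMod M) * x k := by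
  simp [fl, LinearMap.sum_apply]

lemma fl_nat (M : ℕ) (j : ι) (x : κ → ℕ) :
    fl A M j (fun k => (x k : ZMod M)) = (fm A j x : ZMod M) := by
  rw [fl_apply]; unfold fm; push_cast; rfl

lemma fl_int (M : ℕ) (j : ι) (x : κ → ℤ) :
    fl A M j (fun k => (x k : ZMod M)) = (fz A j x : ZMod M) := by
  rw [fl_apply]; unfold fz; push_cast; rfl

lemma fm_le (j : ι) (x : κ → ℕ) (W : ℕ) (h : ∀ k, x k ≤ W) : fm A j x ≤ fm A j 1 * W := by
  unfold fm
  rw [Finset.sum_mul]
  exact Finset.sum_le_sum fun k _ => by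
    simp only [Pi.one_apply, mul_one]; exact Nat.mul_le_mul_left _ (h k)

lemma fm_modEq (j : ι) (x y : κ → ℕ) (m : ℕ) (h : ∀ k, x k ≡ y k [MOD m]) :
    fm A j x ≡ fm A j y [MOD m] := by
  unfold fm
  exact Nat.ModEq.sum fun k _ => (h k).mul_left _

lemma fm_line (j : ι) (r y : κ → ℕ) (m s : ℕ) :
    fm A j (fun k => r k + m * (y k + s)) = fm A j (fun k => r k + m * y k) + m * fm A j 1 * s := by
  unfold fm
  rw [Finset.mul_sum, Finset.sum_mul, ← Finset.sum_add_distrib]
  refine Finset.sum_congr rfl fun k _ => ?_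
  simp only [Pi.one_apply]; ring

lemma fm_var [DecidableEq κ] (j : ι) (k : κ) (h : ∀ k', A j k' = if k' = k then 1 else 0)
    (x : κ → ℕ) : fm A j x = x k := by
  unfold fm; simp [h]

end

lemma sum_zmod (M : ℕ) [NeZero M] (φ : ℕ → ℂ) :
    ∑ y : ZMod M, φ y.val = ∑ n ∈ range M, φ n := by
  refine Finset.sum_nbij' (fun y => y.val) (fun n => (n : ZMod M)) ?_ ?_ ?_ ?_ ?_
  · intro y _; exact Finset.mem_range.2 (ZMod.val_lt y)
  · intro n _; exact mem_univ _
  · intro y _; exact ZMod.natCast_zmod_val y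
  · intro n hn; exact ZMod.val_cast_of_lt (Finset.mem_range.1 hn)
  · intro y _; rfl

/-- restriction of a weight to an interval and a residue class -/
noncomputable def res (g : ℕ → ℝ) (N m c n : ℕ) : ℝ :=
  if n ∈ Icc 1 N ∧ n ≡ c [MOD m] then g n else 0

theorem core (four : Fourier) (vn : VN) {ι κ : Type} [Fintype ι] [Fintype κ] [DecidableEq ι]
    [DecidableEq κ] (A : ι → κ → ℕ) (hvar : ∀ k, ∃ j, ∀ k', A j k' = if k' = k then 1 else 0)
    (hcx : ∀ i, ∃ h₁ h₂ : κ → ℤ, fz A i h₁ ≠ 0 ∧ fz A i h₂ ≠ 0 ∧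
      ∀ j, j ≠ i → fz A j h₁ = 0 ∨ fz A j h₂ = 0)
    (m : ℕ) (hm : 0 < m) (r : κ → ℕ) (hr : ∀ j, (fm A j r).Coprime m)
    (hbig : ∀ p : ℕ, p.Prime → ¬ p ∣ m → 2 * Fintype.card ι ≤ p ∧ ∀ j, ¬ p ∣ fm A j 1) :
    ∃ x : κ → ℕ, (∀ k, x k ≡ r k [MOD m]) ∧ ∀ j, (fm A j x).Prime := by
  choose h₁ h₂ hh₁ hh₂ hh using hcx
  set t := Fintype.card ι with ht
  set d := Fintype.card κ with hd
  obtain ⟨B, N₀, hB, hF⟩ := four (t + 2)
  set S := 1 + ∑ j, fm A j 1 with hS
  have hSj : ∀ j, fm A j 1 ≤ S := fun j =>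
    (Finset.single_le_sum (f := fun j => fm A j 1) (fun _ _ => Nat.zero_le _) (mem_univ j)).trans
      (by omega)
  set R := ∑ k, r k + 2 * m with hR
  set c₀ := S * R with hc₀
  have hc₀0 : 0 < c₀ := Nat.mul_pos (by omega) (by omega)
  have hs : Tendsto (fun N : ℕ => √(N : ℝ)) atTop atTop :=
    Real.tendsto_sqrt_atTop.comp tendsto_natCast_atTop_atTop
  obtain ⟨N, hN₀, hline, hwt, hz2, hNc, hNh, hsq, hLbig, hL1⟩ := ((eventually_ge_atTop N₀).and
    ((line (ι := ι) B hB m).and ((wt_ev B hB).and ((zz_ge B hB 2).and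
    ((eventually_ge_atTop c₀).and
    ((eventually_ge_atTop (∑ i, ((fz A i (h₁ i)).natAbs + (fz A i (h₂ i)).natAbs))).and
    ((hs.eventually_ge_atTop (2 * c₀)).and
    ((ev_ge (2 * t * (2 * S) ^ d * (2 * c₀) ^ d + 1)).and (ev_ge 1))))))))).exists
  set L := Real.log N with hL
  set z := zz B N with hz
  have hL0 : 0 < L := by linarith
  have hN1 : 1 ≤ N := by omega
  have hN0 : (0 : ℝ) < N := by exact_mod_cast hN1
  obtain ⟨M, hMp, hM1, hM2⟩ := Nat.exists_prime_lt_and_le_two_mul (S * N)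
    (Nat.mul_pos (by omega) hN1).ne'
  have hNM : N < M := lt_of_le_of_lt (Nat.le_mul_of_pos_left N (by omega)) hM1
  haveI := Fact.mk hMp
  set F : (ℕ → ℝ) → ι → ZMod M → ℂ := fun g j y => (res g N m (fm A j r) y.val : ℂ) with hFdef
  have hne : ∀ u : ℤ, u ≠ 0 → u.natAbs ≤ N → (u : ZMod M) ≠ 0 := by
    intro u hu hle h
    rw [ZMod.intCast_zmod_eq_zero_iff_dvd] at h
    have := Nat.le_of_dvd (Int.natAbs_pos.2 hu) (Int.natCast_dvd.1 h)
    omega
  have htel := telescope (F th) (F (md z)) (fun j x => fl A M j x)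
    ((Fintype.card (κ → ZMod M) : ℝ) / M * (N / L ^ (t + 2)) * L ^ (t - 1)) (by
      intro i h hj hi
      have hb := (Finset.single_le_sum (f := fun i =>
        (fz A i (h₁ i)).natAbs + (fz A i (h₂ i)).natAbs) (fun _ _ => Nat.zero_le _)
        (mem_univ i)).trans hNh
      refine vn M (κ → ZMod M) ι (fl A M) h i (fun k => (h₁ i k : ZMod M))
        (fun k => (h₂ i k : ZMod M)) _ L hL0.le ?_ ?_ ?_ ?_ ?_
      · rw [fl_int]; exact hne _ (hh₁ i) (by omega)
      · rw [fl_int]; exact hne _ (hh₂ i) (by omega)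
      · intro j hj'
        rw [fl_int, fl_int]
        rcases hh i j hj' with h' | h'
        · left; rw [h']; simp
        · right; rw [h']; simp
      · intro j hj' y
        rcases hj j hj' with h' | h'
        · rw [h']
          simp only [hFdef, res]
          rw [Complex.norm_real]
          split_ifs with hc
          · rw [Real.norm_of_nonneg (th_nonneg _)]; exact th_le (Finset.mem_Icc.1 hc.1).2
          · simpa using hL0.le
        · rw [h']
          simp only [hFdef, res]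
          rw [Complex.norm_real]
          split_ifs with hc
          · rw [Real.norm_of_nonneg (md_nonneg _ _)]; exact (md_le _ _).trans hwt
          · simpa using hL0.le
      · intro ξ
        rw [hi]
        simp only [hFdef, Pi.sub_apply]
        rw [sum_zmod M (fun n => ((res th N m (fm A i r) n : ℂ) - res (md z) N m (fm A i r) n) *
          e (n * ((ξ.val : ℝ) / M)))]
        refine le_trans (le_of_eq ?_) (cls (fun n => th n - md z n) N m (fm A i r) hm _
          (hF N hN₀) ((ξ.val : ℝ) / M))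
        congr 1
        symm
        refine Finset.sum_subset_zero_on_sdiff ?_ ?_ ?_
        · intro n hn
          exact Finset.mem_range.2 (by have := Finset.mem_Icc.1 hn; omega)
        · intro n hn
          have := (Finset.mem_sdiff.1 hn).2
          simp only [res, this, false_and, if_false]; simp
        · intro n hn
          simp only [res, hn, true_and]
          split_ifs <;> simp)
  set Y := N / c₀ with hY
  have hY1 : 1 ≤ Y := Nat.div_pos hNc hc₀0
  have hY2 : c₀ * Y ≤ N := Nat.mul_div_le N c₀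
  have hY3 : (N : ℝ) ≤ 2 * c₀ * Y := by
    have a1 : N < c₀ * (Y + 1) := Nat.lt_mul_div_succ N hc₀0
    have a2 : N ≤ 2 * c₀ * Y := by nlinarith
    exact_mod_cast a2
  have hc₀R : (0 : ℝ) < c₀ := by exact_mod_cast hc₀0
  have hYR : (0 : ℝ) < Y := by exact_mod_cast hY1
  have hY4 : √(N : ℝ) ≤ Y := by
    have a1 : √(N : ℝ) * √N = N := Real.mul_self_sqrt hN0.le
    have a2 : 0 < √(N : ℝ) := Real.sqrt_pos.2 hN0
    have a3 : 2 * c₀ * √(N : ℝ) ≤ 2 * c₀ * Y := by nlinarith
    exact le_of_mul_le_mul_left a3 (by positivity)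
  set G : (κ → ZMod M) → ℝ := fun x => ∏ j, res (md z) N m (fm A j r) (fl A M j x).val with hG
  have hres0 : ∀ c n, 0 ≤ res (md z) N m c n := fun c n => by
    unfold res; split_ifs
    · exact md_nonneg _ _
    · exact le_rfl
  have hG0 : ∀ x, 0 ≤ G x := fun x => Finset.prod_nonneg fun j _ => hres0 _ _
  set Box := Fintype.piFinset (fun _ : κ => range Y) with hBox
  set X : (κ → ℕ) → ℕ → κ → ℕ := fun y s k => r k + m * (y k + s) with hX
  have hXle : ∀ y ∈ Box, ∀ s ∈ range Y, ∀ k, X y s k ≤ R * Y := by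
    intro y hy s hs k
    have a1 := Finset.mem_range.1 (Fintype.mem_piFinset.1 hy k)
    have a2 := Finset.mem_range.1 hs
    have a3 : r k ≤ ∑ k, r k :=
      Finset.single_le_sum (f := r) (fun _ _ => Nat.zero_le _) (mem_univ k)
    have a4 : m * (y k + s) ≤ m * (2 * Y) := Nat.mul_le_mul_left _ (by omega)
    have a5 : ∑ k, r k ≤ (∑ k, r k) * Y := Nat.le_mul_of_pos_right _ hY1
    simp only [hX, hR]
    nlinarith
  have hRY : S * (R * Y) ≤ N := by rw [← mul_assoc]; exact hY2
  have hfle : ∀ y ∈ Box, ∀ s ∈ range Y, ∀ j, fm A j (X y s) ≤ N := fun y hy s hs j =>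
    (fm_le A j _ _ (hXle y hy s hs)).trans ((Nat.mul_le_mul_right _ (hSj j)).trans hRY)
  have hinj : ∀ s ∈ range Y, ∑ y ∈ Box, G (fun k => (X y s k : ZMod M)) ≤ ∑ x, G x := by
    intro s hs
    rw [← Finset.sum_image (f := G) (g := fun y k => (X y s k : ZMod M))]
    · exact Finset.sum_le_sum_of_subset_of_nonneg (Finset.subset_univ _) fun x _ _ => hG0 x
    · intro y hy y' hy' h
      funext k
      have a0 : R * Y ≤ S * (R * Y) := Nat.le_mul_of_pos_left _ (by omega)
      have a1 := congrArg ZMod.val (congrFun h k)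
      simp only at a1
      rw [ZMod.val_cast_of_lt (by have := hXle y hy s hs k; omega),
        ZMod.val_cast_of_lt (by have := hXle y' hy' s hs k; omega)] at a1
      simp only [hX] at a1
      have := Nat.eq_of_mul_eq_mul_left hm (Nat.add_left_cancel a1)
      omega
  have hlow : ∀ y ∈ Box, (Y : ℝ) / (2 * L) ≤
      ∑ s ∈ range Y, G (fun k => (X y s k : ZMod M)) := by
    intro y hy
    refine (hline Y hY4 (fun j => fm A j (fun k => r k + m * y k)) (fun j => m * fm A j 1)
      (fun p hp hpm => ⟨(hbig p hp hpm).1, fun j h => ((Nat.Prime.dvd_mul hp).1 h).elim hpm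
        ((hbig p hp hpm).2 j)⟩)).trans (Finset.sum_le_sum fun s hs => ?_)
    split_ifs with hc
    · simp only [hG]
      calc (1 : ℝ) = ∏ j : ι, (1 : ℝ) := by simp
        _ ≤ _ := Finset.prod_le_prod (fun _ _ => zero_le_one) fun j _ => ?_
      have a1 := hfle y hy s hs j
      rw [fl_nat, ZMod.val_cast_of_lt (by omega)]
      have a2 : fm A j (X y s) ≡ fm A j r [MOD m] := fm_modEq A j _ _ m fun k => by
        simp only [hX]; exact (Nat.modEq_iff_dvd' (Nat.le_add_right _ _)).2 (by simp) |>.symm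
      have a3 : ∀ p ∈ PP z, ¬ p ∣ fm A j (X y s) := by
        intro p hp hd'
        by_cases hpm : p ∣ m
        · have : p ∣ fm A j r := (a2.dvd_iff hpm).1 hd'
          exact (mem_PP.1 hp).1.one_lt.ne' (Nat.eq_one_of_dvd_coprimes (hr j) this hpm)
        · refine hc p (mem_filter.2 ⟨hp, hpm⟩) ⟨j, ?_⟩
          rw [← fm_line]; exact hd'
      have a4 : 1 ≤ fm A j (X y s) := by
        by_contra h0
        have : fm A j (X y s) = 0 := by omega
        exact a3 2 (mem_PP.2 ⟨Nat.prime_two, hz2⟩) (this ▸ dvd_zero 2)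
      unfold res md
      rw [if_pos ⟨Finset.mem_Icc.2 ⟨a4, a1⟩, a2⟩, if_pos a3]
      exact one_le_wt z
    · exact hG0 _
  have hmain : (Y : ℝ) ^ d / (2 * L) ≤ ∑ x, G x := by
    have a1 : ∑ y ∈ Box, (Y : ℝ) / (2 * L) ≤ ∑ s ∈ range Y, ∑ x, G x := by
      refine (Finset.sum_le_sum hlow).trans ?_
      rw [Finset.sum_comm]
      exact Finset.sum_le_sum hinj
    rw [Finset.sum_const, Finset.sum_const, Finset.card_range, hBox, Fintype.card_piFinset,
      nsmul_eq_mul, nsmul_eq_mul] at a1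
    simp only [Finset.card_range, Finset.prod_const, Finset.card_univ, ← hd] at a1
    refine le_of_mul_le_mul_left ?_ hYR
    refine le_trans (le_of_eq ?_) a1
    push_cast; ring
  have hne0 : ∑ x, ∏ j, F th j (fl A M j x) ≠ 0 := by
    intro h0
    have a1 : ∑ x, ∏ j, F (md z) j (fl A M j x) = ((∑ x, G x : ℝ) : ℂ) := by
      simp only [hFdef, hG]; push_cast; rfl
    rw [h0, a1, zero_sub, norm_neg, Complex.norm_real,
      Real.norm_of_nonneg (Finset.sum_nonneg fun x _ => hG0 x), Fintype.card_fun, ZMod.card,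
      ← hd, ← ht] at htel
    have hM0 : (0 : ℝ) < M := by exact_mod_cast hMp.pos
    have hNM' : (N : ℝ) ≤ M := by exact_mod_cast hNM.le
    have hM2' : (M : ℝ) ≤ 2 * S * (2 * c₀ * Y) := by
      have : (M : ℝ) ≤ 2 * (S * N) := by exact_mod_cast hM2
      refine this.trans ?_
      rw [mul_assoc]; gcongr
    have a2 : ((M ^ d : ℕ) : ℝ) / M * (N / L ^ (t + 2)) * L ^ (t - 1) ≤
        (2 * S) ^ d * (2 * c₀) ^ d * Y ^ d / L ^ 2 := by
      calc _ ≤ ((M ^ d : ℕ) : ℝ) / M * (M / L ^ (t + 2)) * L ^ t := by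
            gcongr
            omega
        _ = (M : ℝ) ^ d / L ^ 2 := by push_cast; rw [pow_add]; field_simp
        _ ≤ (2 * S * (2 * c₀ * Y)) ^ d / L ^ 2 := by gcongr
        _ = _ := by rw [mul_pow, mul_pow (2 * (c₀ : ℝ))]; ring
    have a3 := hmain.trans (htel.trans (mul_le_mul_of_nonneg_left a2 (Nat.cast_nonneg t)))
    have hYd : (0 : ℝ) < Y ^ d := by positivity
    rw [← mul_div_assoc, div_le_div_iff₀ (by positivity) (by positivity)] at a3
    have a4 : (Y : ℝ) ^ d * L * L ≤ Y ^ d * L * (2 * t * (2 * S) ^ d * (2 * c₀) ^ d) := by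
      nlinarith
    have a5 := le_of_mul_le_mul_left a4 (by positivity)
    linarith
  obtain ⟨x, _, hx⟩ := Finset.exists_ne_zero_of_sum_ne_zero hne0
  have hx' : ∀ j, (fl A M j x).val ≤ N ∧ (fl A M j x).val ≡ fm A j r [MOD m] ∧
      (fl A M j x).val.Prime := by
    intro j
    have := Finset.prod_ne_zero_iff.1 hx j (mem_univ j)
    simp only [hFdef, res, th] at this
    split_ifs at this with c1 c2
    · exact ⟨(Finset.mem_Icc.1 c1.1).2, c1.2, c2⟩
    · simp at this
    · simp at this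
  have hxe : x = fun k => (((x k).val : ℕ) : ZMod M) := by
    funext k; exact (ZMod.natCast_zmod_val _).symm
  have hval : ∀ j, (fl A M j x).val = fm A j (fun k => (x k).val) % M := by
    intro j
    conv_lhs => rw [hxe]
    rw [fl_nat, ZMod.val_natCast]
  have hk : ∀ k, (x k).val ≤ N ∧ (x k).val ≡ r k [MOD m] := by
    intro k
    obtain ⟨j, hj⟩ := hvar k
    have := hx' j
    rw [hval, fm_var A j k hj, fm_var A j k hj, Nat.mod_eq_of_lt (ZMod.val_lt _)] at this
    exact ⟨this.1, this.2.1⟩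
  refine ⟨fun k => (x k).val, fun k => (hk k).2, fun j => ?_⟩
  have := (hx' j).2.2
  rwa [hval, Nat.mod_eq_of_lt (lt_of_le_of_lt ((fm_le A j _ N fun k => (hk k).1).trans
    (Nat.mul_le_mul_right _ (hSj j))) hM1)] at this

end Vale.Agent.P027P
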