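import Vale.Agent.P027P.MinorB

/-! Minor arcs: the estimate of Vinogradov and Vaughan. -/

set_option linter.all false

namespace Vale.Agent.P027P.Mn

open Finset Real ArithmeticFunction
open Vale.Agent.P013.J (e)
open Vale.Agent.P005.BV (lo hi mu ze lo_apply hi_apply)

theorem row_le {C α : ℝ} {q : ℕ} (N n : ℕ) (hn : 1 ≤ n) (hq : 1 ≤ q)
    (hB : ∀ (T : ℝ) (h₀ : ℤ) (H : ℕ), 0 ≤ T → ∑ h ∈ range H, kk T (((h₀ + h : ℤ) : ℝ) * α) ≤
      C * ((H : ℝ) / q + 1) * (T + q * (1 + Real.log q))) :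
    ∑ n' ∈ Icc 1 n, Phi α N n n' ≤
      C * (((N : ℝ) ^ 2 / q + N * q * (1 + Real.log q)) * (1 / n) + N * (1 + Real.log q) +
        (N : ℝ) ^ 2 * ((n : ℝ) ^ 2)⁻¹) := by
  have h := hB ((N : ℝ) / n) (1 - n) n (by positivity)
  have hn0 : (0 : ℝ) < n := by exact_mod_cast hn
  have hq0 : (0 : ℝ) < q := by exact_mod_cast hq
  have e1 : ∑ n' ∈ Icc 1 n, Phi α N n n' = (N : ℝ) / n *
      ∑ h ∈ range n, kk ((N : ℝ) / n) ((((1 - n : ℤ) + h : ℤ) : ℝ) * α) := by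
    unfold Phi
    rw [← mul_sum, range_eq_Ico, ← Ico_add_one_right_eq_Icc, sum_Ico_eq_sum_range,
      sum_Ico_eq_sum_range]
    simp only [add_tsub_cancel_right, tsub_zero, zero_add]
    congr 1
    refine sum_congr rfl fun h _ => ?_
    congr 3
    push_cast
    ring
  rw [e1]
  refine (mul_le_mul_of_nonneg_left h (by positivity)).trans (le_of_eq ?_)
  field_simp
  ring

theorem rows_le {C α : ℝ} {q : ℕ} (hC : 0 ≤ C) (N U : ℕ) (hN : 1 ≤ N) (hU : 1 ≤ U) (hq : 1 ≤ q)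
    (hB : ∀ (T : ℝ) (h₀ : ℤ) (H : ℕ), 0 ≤ T → ∑ h ∈ range H, kk T (((h₀ + h : ℤ) : ℝ) * α) ≤
      C * ((H : ℝ) / q + 1) * (T + q * (1 + Real.log q))) :
    ∑ n ∈ Ioc U (N / U), ∑ n' ∈ Icc 1 n, Phi α N n n' ≤
      C * (((N : ℝ) ^ 2 / q + N * q * (1 + Real.log q)) * (1 + Real.log N) +
        (N : ℝ) ^ 2 / U * (1 + Real.log q) + (N : ℝ) ^ 2 / U) := by
  have hsub : Ioc U (N / U) ⊆ Icc 1 N := by
    intro n hn
    have := Nat.div_le_self N U
    rw [mem_Ioc] at hn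
    rw [mem_Icc]
    omega
  have hU0 : (0 : ℝ) < U := by exact_mod_cast hU
  have hl := Real.log_natCast_nonneg q
  have h1 : ∑ m ∈ Ioc U (N / U), 1 / (m : ℝ) ≤ 1 + Real.log N :=
    (sum_le_sum_of_subset_of_nonneg hsub fun m _ _ => by positivity).trans
      (Vale.Agent.P013.J.BV.sum_inv_Icc_le N N (by exact_mod_cast hN) le_rfl)
  have h2 : ((Ioc U (N / U)).card : ℝ) ≤ (N : ℝ) / U := by
    rw [Nat.card_Ioc]
    exact le_trans (by exact_mod_cast Nat.sub_le _ _) Nat.cast_div_le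
  have h3 : ∑ m ∈ Ioc U (N / U), ((m : ℝ) ^ 2)⁻¹ ≤ (U : ℝ)⁻¹ := by
    rcases le_total U (N / U) with h | h
    · refine (sum_Ioc_inv_sq_le_sub (by omega) h).trans ?_
      exact sub_le_self _ (by positivity)
    · rw [Ioc_eq_empty (by omega), sum_empty]
      positivity
  refine (sum_le_sum fun n hn => row_le N n (mem_Icc.1 (hsub hn)).1 hq hB).trans ?_
  rw [← mul_sum, sum_add_distrib, sum_add_distrib, sum_const, nsmul_eq_mul, ← mul_sum, ← mul_sum]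
  refine mul_le_mul_of_nonneg_left (add_le_add (add_le_add ?_ ?_) ?_) hC
  · exact mul_le_mul_of_nonneg_left h1 (by positivity)
  · refine (mul_le_mul_of_nonneg_right h2 (by positivity)).trans (le_of_eq ?_)
    ring
  · exact mul_le_mul_of_nonneg_left h3 (by positivity)

theorem split (α : ℝ) (N U : ℕ) :
    ∑ n ∈ Icc 1 N, (vonMangoldt n : ℂ) * e (n * α) =
      ∑ n ∈ Icc 1 N, (lo vonMangoldt U n : ℂ) * e (n * α) +
      ∑ n ∈ Icc 1 N, ((lo mu U * ArithmeticFunction.log) n : ℂ) * e (n * α) -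
      ∑ n ∈ Icc 1 N, (((lo vonMangoldt U * lo mu U) * ze) n : ℂ) * e (n * α) +
      ∑ m ∈ Icc 1 N, (hi mu U m : ℂ) *
        ∑ n ∈ Icc 1 (N / m), ((hi vonMangoldt U * ze) n : ℂ) * e ((m * n : ℕ) * α) := by
  rw [← sum_convC _ _ (fun n => e (n * α)), ← sum_add_distrib, ← sum_sub_distrib,
    ← sum_add_distrib]
  refine sum_congr rfl fun n _ => ?_
  have h := Vale.Agent.P005.BV.vaughan U U
  rw [mul_left_comm] at h
  have h2 := congrArg (fun f : ArithmeticFunction ℝ => f n) h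
  simp only [ArithmeticFunction.add_apply, sub_eq_add_neg, ArithmeticFunction.neg_apply] at h2
  rw [h2]
  push_cast
  ring

theorem num4 {L l x y s w : ℝ} (hL : 1 / 2 ≤ L) (hl0 : 0 ≤ l) (hl : l ≤ L) (hx0 : 0 ≤ x)
    (hy0 : 0 ≤ y) (hs0 : 0 ≤ s) (hw : w ≤ s ^ 2) :
    (x ^ 2 + y ^ 2 * (1 + l)) * (1 + L) + w * (1 + l) + w ≤ 10 * L ^ 2 * (x + s + y) ^ 2 := by
  have h1 : 1 + L ≤ 3 * L := by linarith
  have h2 : 1 + l ≤ 3 * L := by linarith
  have h4 : 1 ≤ 2 * L := by linarith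
  have h5 : (x ^ 2 + y ^ 2 * (1 + l)) * (1 + L) ≤
      (x ^ 2 * (2 * L) + y ^ 2 * (3 * L)) * (3 * L) := by
    gcongr
    exact le_mul_of_one_le_right (sq_nonneg x) h4
  have h6 : w * (1 + l) ≤ s ^ 2 * (6 * L ^ 2) := by
    gcongr
    nlinarith
  have h7 : s ^ 2 ≤ s ^ 2 * (4 * L ^ 2) :=
    le_mul_of_one_le_right (sq_nonneg _) (by nlinarith)
  have h8 : x ^ 2 + s ^ 2 + y ^ 2 ≤ (x + s + y) ^ 2 := by
    nlinarith [mul_nonneg hx0 hs0, mul_nonneg hx0 hy0, mul_nonneg hs0 hy0]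
  have h9 := mul_le_mul_of_nonneg_left h8 (show 0 ≤ 10 * L ^ 2 by positivity)
  nlinarith [mul_nonneg (sq_nonneg x) (sq_nonneg L), mul_nonneg (sq_nonneg y) (sq_nonneg L)]

end Vale.Agent.P027P.Mn

namespace Vale.Agent.P027P

open Finset Real ArithmeticFunction Mn
open Vale.Agent.P013.J (e)
open Vale.Agent.P005.BV (lo hi mu ze lo_apply hi_apply)

theorem minor_of (hG : Geo) (hVB : VinoB) (hV : Vino) : Minor := by
  obtain ⟨C₁, hC₁, hVB⟩ := hVB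
  obtain ⟨C₂, hC₂, hV⟩ := hV
  refine ⟨8 + 8 * C₂ + √(240 * C₁), 3, by positivity, fun α a N q hN hq hqN hcop hα => ?_⟩
  have hN1 : (1 : ℝ) ≤ N := by exact_mod_cast (by omega : 1 ≤ N)
  have hN0 : (0 : ℝ) < N := by linarith
  have hq1 : (1 : ℝ) ≤ q := by exact_mod_cast hq
  have hq0 : (0 : ℝ) < q := by linarith
  have hqN' : (q : ℝ) ≤ N := by exact_mod_cast hqN
  obtain ⟨L, hL⟩ : ∃ L, L = Real.log N := ⟨_, rfl⟩
  have hL2 : 1 / 2 ≤ L := by
    have h1 := Real.log_two_gt_d9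
    have h2 : Real.log 2 ≤ Real.log N := Real.log_le_log two_pos (by exact_mod_cast hN)
    linarith
  have hlq : Real.log q ≤ L := hL ▸ Real.log_le_log hq0 hqN'
  have hlq0 := Real.log_natCast_nonneg q
  obtain ⟨t, ht⟩ : ∃ t : ℝ, t = (N : ℝ) ^ (1 / 10 : ℝ) := ⟨_, rfl⟩
  have ht1 : 1 ≤ t := ht ▸ Real.one_le_rpow hN1 (by norm_num)
  have ht10 : t ^ 10 = N := by
    rw [ht, ← Real.rpow_natCast, ← Real.rpow_mul hN0.le]
    norm_num
  have ht9 : (N : ℝ) ^ (9 / 10 : ℝ) = t ^ 9 := by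
    rw [ht, ← Real.rpow_natCast, ← Real.rpow_mul hN0.le]
    norm_num
  obtain ⟨U, hU⟩ : ∃ U : ℕ, U = ⌈t ^ 2⌉₊ := ⟨_, rfl⟩
  have ht2 : 1 ≤ t ^ 2 := one_le_pow₀ ht1
  have hU1 : t ^ 2 ≤ U := hU ▸ Nat.le_ceil _
  have hU2 : (U : ℝ) ≤ 2 * t ^ 2 := by
    have := Nat.ceil_lt_add_one (show 0 ≤ t ^ 2 by positivity)
    rw [← hU] at this
    linarith
  have hU0 : 1 ≤ U := by exact_mod_cast ht2.trans hU1
  have h29 : t ^ 2 ≤ t ^ 9 := pow_le_pow_right₀ ht1 (by norm_num)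
  have h49 : t ^ 4 ≤ t ^ 9 := pow_le_pow_right₀ ht1 (by norm_num)
  obtain ⟨x, hx⟩ : ∃ x : ℝ, x = N / √q := ⟨_, rfl⟩
  obtain ⟨y, hy⟩ : ∃ y : ℝ, y = √(N * q) := ⟨_, rfl⟩
  have hsq : 1 ≤ √(q : ℝ) := Real.one_le_sqrt.2 hq1
  have hx0 : 0 ≤ x := by rw [hx]; positivity
  have hy0 : 0 ≤ y := by rw [hy]; positivity
  have hx2 : x ^ 2 = (N : ℝ) ^ 2 / q := by rw [hx, div_pow, Real.sq_sqrt hq0.le]
  have hy2 : y ^ 2 = N * q := by rw [hy, Real.sq_sqrt (by positivity)]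
  have hxq : (N : ℝ) / q ≤ x := by
    rw [hx]
    refine div_le_div_of_nonneg_left hN0.le (by linarith) ?_
    exact Real.sqrt_le_iff.2 ⟨hq0.le, by nlinarith⟩
  have hyq : (q : ℝ) ≤ y := by
    rw [hy]
    exact Real.le_sqrt_of_sq_le (by nlinarith)
  rw [← hL, ← hx, ← hy, ht9]
  obtain ⟨E, hE⟩ : ∃ E, E = x + t ^ 9 + y := ⟨_, rfl⟩
  rw [← hE]
  have ht90 : 0 ≤ t ^ 9 := by positivity
  have hE0 : 0 ≤ E := by rw [hE]; positivity
  have hL3 : 0 ≤ L ^ 3 := by positivity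
  have b1 := term1 α N U (by omega)
  have b2 := term2 hG α N U
  have b3 := term3 hG α N U U
  have b4 := typeII hG α (Real.log N) N U U (by omega) hU0 (fun n => hi mu U n)
    (fun n => (hi vonMangoldt U * ze) n)
    (abs_hi_mu U) (fun m hm => by rw [hi_apply, if_pos hm])
    (fun n hn => (abs_conv_le _ _ (abs_hi_vM U) abs_ze n).trans (log_le hn))
    (fun n hn => hi_conv_zero _ _ U n hn)
  have v2 := hV α a N (min N U) q hN (min_le_left _ _) hq hqN hcop hα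
  have v3 := hV α a N (min N (U * U)) q hN (min_le_left _ _) hq hqN hcop hα
  have v4 := rows_le (α := α) hC₁.le N U (by omega) hU0 hq
    fun T h₀ H hT => hVB T α h₀ a H q hT hq hcop hα
  rw [← hL] at b1 b2 b3 b4 v2 v3 v4
  have m2 : ((min N U : ℕ) : ℝ) ≤ U := by exact_mod_cast min_le_right N U
  have m3 : ((min N (U * U) : ℕ) : ℝ) ≤ 4 * t ^ 9 := by
    have h1 : ((min N (U * U) : ℕ) : ℝ) ≤ U * U := by exact_mod_cast min_le_right N (U * U)
    have h2 : (U : ℝ) * U ≤ (2 * t ^ 2) * (2 * t ^ 2) := by gcongr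
    have h3 : (2 * t ^ 2) * (2 * t ^ 2) = 4 * t ^ 4 := by ring
    linarith only [h1, h2, h3, h49]
  have c1 : (U : ℝ) * L ≤ 8 * E * L ^ 3 := by
    have h1 : (U : ℝ) ≤ 2 * E := by linarith only [hE, hU2, h29, hx0, hy0]
    have h2 : L ≤ 4 * L ^ 3 := by
      have h3 : 1 ≤ 4 * L ^ 2 := by nlinarith only [hL2]
      have h4 := le_mul_of_one_le_right (by linarith only [hL2] : 0 ≤ L) h3
      linarith only [h4]
    calc (U : ℝ) * L ≤ (2 * E) * (4 * L ^ 3) := by gcongr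
      _ = _ := by ring
  have c2 : 2 * L * ∑ d ∈ Icc 1 (min N U), kk ((N : ℝ) / d) (d * α) ≤ 4 * C₂ * E * L ^ 3 := by
    have h1 : (N : ℝ) / q + (min N U : ℕ) + q ≤ 2 * E := by
      linarith only [hE, hU2, h29, hx0, hy0, m2, hxq, hyq]
    calc _ ≤ 2 * L * (C₂ * (2 * E) * L ^ 2) := by
          gcongr
          exact v2.trans (by gcongr)
      _ = _ := by ring
  have c3 : L * ∑ d ∈ Icc 1 (min N (U * U)), kk ((N : ℝ) / d) (d * α) ≤
      4 * C₂ * E * L ^ 3 := by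
    have h1 : (N : ℝ) / q + (min N (U * U) : ℕ) + q ≤ 4 * E := by
      linarith only [hE, hx0, hy0, m3, hxq, hyq]
    calc _ ≤ L * (C₂ * (4 * E) * L ^ 2) := by
          gcongr
          exact v3.trans (by gcongr)
      _ = _ := by ring
  have hNU : (N : ℝ) ^ 2 / U ≤ (t ^ 9) ^ 2 := by
    rw [div_le_iff₀ (by linarith), ← ht10]
    calc (t ^ 10) ^ 2 = (t ^ 9) ^ 2 * t ^ 2 := by ring
      _ ≤ _ := by gcongr
  have c4 : (1 + L) * (4 * L ^ 2 * ∑ n ∈ Ioc U (N / U), ∑ n' ∈ Icc 1 n, Phi α N n n') ≤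
      (√(240 * C₁) * E * L ^ 3) ^ 2 := by
    have h1 : 1 + L ≤ 3 * L := by linarith only [hL2]
    have h3 : ((N : ℝ) ^ 2 / q + N * q * (1 + Real.log q)) * (1 + L) +
        (N : ℝ) ^ 2 / U * (1 + Real.log q) + (N : ℝ) ^ 2 / U ≤ 10 * L ^ 2 * E ^ 2 := by
      rw [← hx2, ← hy2]
      rw [hE]
      exact num4 hL2 hlq0 hlq hx0 hy0 ht90 hNU
    calc _ ≤ (3 * L) * (4 * L ^ 2 * (C₁ * (10 * L ^ 2 * E ^ 2))) := by
          gcongr
          · exact mul_nonneg (by positivity)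
              (sum_nonneg fun n _ => sum_nonneg fun n' _ => Phi_nonneg _ _ _ _)
          · exact v4.trans (by gcongr)
      _ = 120 * C₁ * L ^ 5 * E ^ 2 * 1 := by ring
      _ ≤ 120 * C₁ * L ^ 5 * E ^ 2 * (2 * L) := by gcongr; linarith only [hL2]
      _ = _ := by
          rw [mul_pow, mul_pow, Real.sq_sqrt (by positivity)]
          ring
  have b5 := (pow_le_pow_iff_left₀ (norm_nonneg _) (by positivity) two_ne_zero).1 (b4.trans c4)
  rw [split α N U]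
  refine (norm_add_le _ _).trans ?_
  have b6 := (norm_sub_le _ _).trans (add_le_add ((norm_add_le _ _).trans (add_le_add b1 b2)) b3)
  linarith only [b5, b6, c1, c2, c3]

end Vale.Agent.P027P
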