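import Vale.Agent.P027P.Iface

/-! Minor arcs, part A: tools, type I sums. -/

set_option linter.all false

namespace Vale.Agent.P027P.Mn

open Finset Real ArithmeticFunction
open Vale.Agent.P013.J (e)
open Vale.Agent.P005.BV (lo hi mu ze lo_apply hi_apply)

theorem nrm_e (x : ℝ) : ‖e x‖ = 1 := by
  have : e x = Complex.exp ((2 * π * x : ℝ) * Complex.I) := by
    unfold e
    push_cast
    rfl
  rw [this, Complex.norm_exp_ofReal_mul_I]

theorem add_e (x y : ℝ) : e (x + y) = e x * e y := by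
  unfold e
  rw [← Complex.exp_add]
  congr 1
  push_cast
  ring

theorem conj_e (x : ℝ) : (starRingEnd ℂ) (e x) = e (-x) := by
  unfold e
  rw [← Complex.exp_conj]
  congr 1
  simp only [map_mul, Complex.conj_ofReal, Complex.conj_I, map_ofNat]
  push_cast
  ring

theorem sum_convC (f g : ArithmeticFunction ℝ) (φ : ℕ → ℂ) (x : ℕ) :
    ∑ n ∈ Icc 1 x, ((f * g) n : ℂ) * φ n =
      ∑ d ∈ Icc 1 x, (f d : ℂ) * ∑ m ∈ Icc 1 (x / d), (g m : ℂ) * φ (d * m) := by
  have h1 := Vale.Agent.P005.BV.sum_conv f g (fun n => (φ n).re) x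
  have h2 := Vale.Agent.P005.BV.sum_conv f g (fun n => (φ n).im) x
  apply Complex.ext
  · simp only [Complex.re_sum, Complex.re_ofReal_mul, mul_sum]
    rw [h1]
    simp only [mul_assoc]
  · simp only [Complex.im_sum, Complex.im_ofReal_mul, mul_sum]
    rw [h2]
    simp only [mul_assoc]

/-- Abel summation with a monotone weight -/
theorem abelC (a : ℕ → ℂ) (h : ℕ → ℝ) (hmono : Monotone h) (h0 : 0 ≤ h 0) (u y : ℕ) (K : ℝ)
    (ha : ∀ j ≤ y, ‖∑ m ∈ Ioc u j, a m‖ ≤ K) :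
    ‖∑ m ∈ Ioc u y, (h m : ℂ) * a m‖ ≤ 2 * h y * K := by
  have hK : 0 ≤ K := (norm_nonneg _).trans (ha 0 (Nat.zero_le _))
  have hh : ∀ y, 0 ≤ h y := fun y => h0.trans (hmono (Nat.zero_le y))
  have key : ∀ z ≤ y, ‖∑ m ∈ Ioc u z, (h m : ℂ) * a m - (h z : ℂ) * ∑ m ∈ Ioc u z, a m‖ ≤
      h z * K := by
    intro z
    induction z with
    | zero => intro _; simpa using mul_nonneg h0 hK
    | succ z ih =>
      intro hz
      by_cases hu : u ≤ z
      · rw [sum_Ioc_succ_top hu, sum_Ioc_succ_top hu]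
        have e1 : ∑ m ∈ Ioc u z, (h m : ℂ) * a m + (h (z + 1) : ℂ) * a (z + 1) -
            (h (z + 1) : ℂ) * (∑ m ∈ Ioc u z, a m + a (z + 1)) =
            (∑ m ∈ Ioc u z, (h m : ℂ) * a m - (h z : ℂ) * ∑ m ∈ Ioc u z, a m) -
              ((h (z + 1) - h z : ℝ) : ℂ) * ∑ m ∈ Ioc u z, a m := by
          push_cast
          ring
        rw [e1]
        have hd : 0 ≤ h (z + 1) - h z := sub_nonneg.2 (hmono (Nat.le_succ z))
        refine (norm_sub_le _ _).trans ?_
        rw [norm_mul, Complex.norm_real, Real.norm_eq_abs, abs_of_nonneg hd]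
        have h1 := ih (by omega)
        have h2 := mul_le_mul_of_nonneg_left (ha z (by omega)) hd
        linarith
      · rw [Ioc_eq_empty (by omega)]
        simpa using mul_nonneg (hh _) hK
  have h1 := key y le_rfl
  have h2 : ‖(h y : ℂ) * ∑ m ∈ Ioc u y, a m‖ ≤ h y * K := by
    rw [norm_mul, Complex.norm_real, Real.norm_eq_abs, abs_of_nonneg (hh y)]
    exact mul_le_mul_of_nonneg_left (ha y le_rfl) (hh y)
  have h3 := norm_add_le (∑ m ∈ Ioc u y, (h m : ℂ) * a m - (h y : ℂ) * ∑ m ∈ Ioc u y, a m)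
    ((h y : ℂ) * ∑ m ∈ Ioc u y, a m)
  rw [sub_add_cancel] at h3
  linarith

theorem kk_nonneg {T : ℝ} (hT : 0 ≤ T) (β : ℝ) : 0 ≤ kk T β := by
  unfold kk
  positivity

theorem kk_neg (T β : ℝ) : kk T (-β) = kk T β := by
  have h : ∀ x : ℝ, |-x - round (-x)| ≤ |x - round x| := fun x => by
    refine (round_le (-x) (-round x)).trans (le_of_eq ?_)
    rw [← abs_neg]
    congr 1
    push_cast
    ring
  have h1 := h β
  have h2 := h (-β)
  rw [neg_neg] at h2
  unfold kk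
  rw [le_antisymm h1 h2]

theorem Icc_one (y : ℕ) : Icc 1 y = Ioc 0 y := rfl

/-- geometric sum along the multiples of `d` -/
theorem geo_mul (hG : Geo) (α : ℝ) {N d : ℕ} (hd : 1 ≤ d) {j : ℕ} (hj : j ≤ N / d) :
    ‖∑ m ∈ Ioc 0 j, e ((d * m : ℕ) * α)‖ ≤ kk ((N : ℝ) / d) (d * α) := by
  have h1 : (j : ℝ) - (0 : ℕ) ≤ (N : ℝ) / d := by
    have h2 : (j : ℝ) ≤ (N / d : ℕ) := by exact_mod_cast hj
    have h3 : ((N / d : ℕ) : ℝ) ≤ (N : ℝ) / d := Nat.cast_div_le
    simp only [Nat.cast_zero, sub_zero]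
    linarith
  refine le_trans (le_of_eq ?_) (hG _ (d * α) 0 j h1 (by positivity))
  congr 1
  refine sum_congr rfl fun m _ => ?_
  congr 1
  push_cast
  ring

/-- type I sums -/
theorem typeI (α : ℝ) (N D : ℕ) (c : ℕ → ℝ) (F : ℕ → ℂ) (B B' : ℝ) (hB : 0 ≤ B) (hB' : 0 ≤ B')
    (hc : ∀ d ∈ Icc 1 N, |c d| ≤ B) (hc0 : ∀ d, D < d → c d = 0)
    (hF : ∀ d ∈ Icc 1 N, ‖F d‖ ≤ B' * kk ((N : ℝ) / d) (d * α)) :
    ‖∑ d ∈ Icc 1 N, (c d : ℂ) * F d‖ ≤
      B * B' * ∑ d ∈ Icc 1 (min N D), kk ((N : ℝ) / d) (d * α) := by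
  rw [← sum_subset (Icc_subset_Icc_right (min_le_left N D))]
  · rw [mul_sum]
    refine (norm_sum_le _ _).trans (sum_le_sum fun d hd => ?_)
    have hd' := Icc_subset_Icc_right (min_le_left N D) hd
    rw [norm_mul, Complex.norm_real, Real.norm_eq_abs, mul_assoc]
    exact mul_le_mul (hc d hd') (hF d hd') (norm_nonneg _) hB
  · intro d hd hd2
    rw [mem_Icc] at hd hd2
    rw [hc0 d (by omega)]
    simp

theorem abs_mu_le (n : ℕ) : |mu n| ≤ 1 := by
  unfold mu
  rw [intCoe_apply]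
  exact_mod_cast abs_moebius_le_one

theorem abs_lo_mu (V n : ℕ) : |lo mu V n| ≤ 1 := by
  rw [lo_apply]
  split_ifs
  · exact abs_mu_le n
  · simp

theorem abs_hi_mu (V n : ℕ) : |hi mu V n| ≤ 1 := by
  rw [hi_apply]
  split_ifs
  · simp
  · exact abs_mu_le n

/-- a convolution of a minorant of `Λ` with a bounded function is at most `log` -/
theorem abs_conv_le (f g : ArithmeticFunction ℝ) (hf : ∀ n, |f n| ≤ vonMangoldt n)
    (hg : ∀ n, |g n| ≤ 1) (n : ℕ) : |(f * g) n| ≤ Real.log n := by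
  rw [mul_apply, ← vonMangoldt_sum, ← Nat.sum_divisorsAntidiagonal (fun a _ => vonMangoldt a)]
  refine (abs_sum_le_sum_abs _ _).trans (sum_le_sum fun p _ => ?_)
  rw [abs_mul]
  exact (mul_le_of_le_one_right (abs_nonneg _) (hg _)).trans (hf _)

theorem abs_lo_vM (U n : ℕ) : |lo vonMangoldt U n| ≤ vonMangoldt n := by
  rw [lo_apply]
  split_ifs
  · exact (abs_of_nonneg vonMangoldt_nonneg).le
  · simpa using vonMangoldt_nonneg

theorem abs_hi_vM (U n : ℕ) : |hi vonMangoldt U n| ≤ vonMangoldt n := by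
  rw [hi_apply]
  split_ifs
  · simpa using vonMangoldt_nonneg
  · exact (abs_of_nonneg vonMangoldt_nonneg).le

theorem abs_ze (n : ℕ) : |ze n| ≤ 1 := by
  unfold ze
  rw [natCoe_apply, zeta_apply]
  split_ifs <;> simp

theorem ze_one {n : ℕ} (hn : 1 ≤ n) : ze n = 1 := by
  unfold ze
  rw [natCoe_apply, zeta_apply, if_neg (by omega)]
  simp

theorem lo_lo_zero (f g : ArithmeticFunction ℝ) (U V n : ℕ) (h : U * V < n) :
    (lo f U * lo g V) n = 0 := by
  rw [mul_apply]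
  refine sum_eq_zero fun p hp => ?_
  have hp1 := (Nat.mem_divisorsAntidiagonal.1 hp).1
  rw [lo_apply, lo_apply]
  split_ifs with h1 h2
  · have := Nat.mul_le_mul h1 h2
    omega
  all_goals simp

theorem hi_conv_zero (f g : ArithmeticFunction ℝ) (U n : ℕ) (h : n ≤ U) :
    (hi f U * g) n = 0 := by
  rw [mul_apply]
  refine sum_eq_zero fun p hp => ?_
  have hp1 := Nat.fst_mem_divisors_of_mem_antidiagonal hp
  have := Nat.divisor_le hp1
  rw [hi_apply, if_pos (by omega), zero_mul]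

theorem log_le {n N : ℕ} (hn : n ∈ Icc 1 N) : Real.log n ≤ Real.log N := by
  rw [mem_Icc] at hn
  exact Real.log_le_log (by exact_mod_cast hn.1) (by exact_mod_cast hn.2)

theorem log_mono : Monotone fun m : ℕ => Real.log m := by
  intro a b hab
  rcases Nat.eq_zero_or_pos a with rfl | ha
  · simpa using Real.log_natCast_nonneg b
  · exact Real.log_le_log (by exact_mod_cast ha) (by exact_mod_cast hab)

/-- the term with the logarithm -/
theorem term2 (hG : Geo) (α : ℝ) (N V : ℕ) :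
    ‖∑ n ∈ Icc 1 N, ((lo mu V * ArithmeticFunction.log) n : ℂ) * e (n * α)‖ ≤
      2 * Real.log N * ∑ d ∈ Icc 1 (min N V), kk ((N : ℝ) / d) (d * α) := by
  have hL := Real.log_natCast_nonneg N
  rw [sum_convC _ _ (fun n => e (n * α))]
  refine (typeI α N V _ _ 1 (2 * Real.log N) zero_le_one (by positivity)
    (fun d _ => abs_lo_mu V d) (fun d hd => by rw [lo_apply, if_neg (by omega)])
    fun d hd => ?_).trans (by rw [one_mul])
  have hd1 := (mem_Icc.1 hd).1
  have h := abelC (fun m => e ((d * m : ℕ) * α)) (fun m => Real.log m) log_mono (by simp) 0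
    (N / d) _ fun j hj => geo_mul hG α hd1 hj
  simp only [log_apply]
  refine h.trans (mul_le_mul_of_nonneg_right ?_ (kk_nonneg (by positivity) _))
  exact mul_le_mul_of_nonneg_left (log_mono (Nat.div_le_self N d)) zero_le_two

/-- the second type I term -/
theorem term3 (hG : Geo) (α : ℝ) (N U V : ℕ) :
    ‖∑ n ∈ Icc 1 N, (((lo vonMangoldt U * lo mu V) * ze) n : ℂ) * e (n * α)‖ ≤
      Real.log N * ∑ d ∈ Icc 1 (min N (U * V)), kk ((N : ℝ) / d) (d * α) := by
  have hL := Real.log_natCast_nonneg N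
  rw [sum_convC _ _ (fun n => e (n * α))]
  refine (typeI α N (U * V) _ _ (Real.log N) 1 hL zero_le_one
    (fun d hd => (abs_conv_le _ _ (abs_lo_vM U) (abs_lo_mu V) d).trans (log_le hd))
    (fun d hd => lo_lo_zero _ _ U V d hd) fun d hd => ?_).trans (by rw [mul_one])
  have hd1 := (mem_Icc.1 hd).1
  rw [one_mul]
  refine le_trans (le_of_eq ?_) (geo_mul hG α hd1 le_rfl)
  congr 1
  refine sum_congr rfl fun m hm => ?_
  rw [ze_one (mem_Icc.1 hm).1]
  simp

/-- the short term -/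
theorem term1 (α : ℝ) (N U : ℕ) (hN : 1 ≤ N) :
    ‖∑ n ∈ Icc 1 N, (lo vonMangoldt U n : ℂ) * e (n * α)‖ ≤ U * Real.log N := by
  refine (norm_sum_le _ _).trans (le_trans (le_of_eq ?_)
    (Vale.Agent.P005.BV.sum_lo_vonMangoldt N U hN))
  refine sum_congr rfl fun n _ => ?_
  rw [norm_mul, nrm_e, mul_one, Complex.norm_real, Real.norm_eq_abs]

end Vale.Agent.P027P.Mn
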