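import Vale.Agent.P027P.MinorA

/-! Minor arcs, part B: type II sums. -/

set_option linter.all false

namespace Vale.Agent.P027P.Mn

open Finset Real
open Vale.Agent.P013.J (e)

/-- the kernel of the type II estimate -/
noncomputable def Phi (α : ℝ) (N n n' : ℕ) : ℝ :=
  (N : ℝ) / n * kk ((N : ℝ) / n) ((((n' : ℤ) - n : ℤ) : ℝ) * α)

theorem Phi_nonneg (α : ℝ) (N n n' : ℕ) : 0 ≤ Phi α N n n' :=
  mul_nonneg (by positivity) (kk_nonneg (by positivity) _)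

/-- expansion of the square -/
theorem expand (α : ℝ) (N V : ℕ) (b : ℕ → ℝ) :
    ((∑ m ∈ Ioc V N, (m : ℝ) * ‖∑ n ∈ Icc 1 (N / m), (b n : ℂ) * e ((m * n : ℕ) * α)‖ ^ 2 : ℝ) : ℂ) =
      ∑ n₁ ∈ Icc 1 N, ∑ n₂ ∈ Icc 1 N, (b n₁ : ℂ) * b n₂ *
        ∑ m ∈ Ioc V (N / max n₁ n₂), ((m : ℝ) : ℂ) * e (m * ((((n₁ : ℤ) - n₂ : ℤ) : ℝ) * α)) := by
  have h1 : ∀ m ∈ Ioc V N,
      (((m : ℝ) * ‖∑ n ∈ Icc 1 (N / m), (b n : ℂ) * e ((m * n : ℕ) * α)‖ ^ 2 : ℝ) : ℂ) =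
      ∑ n₁ ∈ Icc 1 N, ∑ n₂ ∈ Icc 1 N, if m ≤ N / max n₁ n₂ then (b n₁ : ℂ) * b n₂ *
        (((m : ℝ) : ℂ) * e (m * ((((n₁ : ℤ) - n₂ : ℤ) : ℝ) * α))) else 0 := by
    intro m hm
    have hm0 : 0 < m := by have := (mem_Ioc.1 hm).1; omega
    have hS : ∑ n ∈ Icc 1 (N / m), (b n : ℂ) * e ((m * n : ℕ) * α) =
        ∑ n ∈ Icc 1 N, if n ≤ N / m then (b n : ℂ) * e ((m * n : ℕ) * α) else 0 := by
      rw [← sum_filter]
      refine sum_congr ?_ fun _ _ => rfl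
      ext n
      have := Nat.div_le_self N m
      simp only [mem_Icc, mem_filter]
      omega
    rw [Complex.ofReal_mul, ← Complex.normSq_eq_norm_sq, ← Complex.mul_conj, hS, map_sum,
      sum_mul_sum, mul_sum]
    refine sum_congr rfl fun n₁ hn₁ => ?_
    rw [mul_sum]
    refine sum_congr rfl fun n₂ hn₂ => ?_
    have h2 : m ≤ N / max n₁ n₂ ↔ n₁ ≤ N / m ∧ n₂ ≤ N / m := by
      have := (mem_Icc.1 hn₁).1
      rw [Nat.le_div_iff_mul_le (by omega), mul_comm, ← Nat.le_div_iff_mul_le hm0, max_le_iff]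
    by_cases ha : n₁ ≤ N / m
    · by_cases hb : n₂ ≤ N / m
      · rw [if_pos ha, if_pos hb, if_pos (h2.2 ⟨ha, hb⟩), map_mul, conj_e, Complex.conj_ofReal]
        have e1 : (m : ℝ) * ((((n₁ : ℤ) - n₂ : ℤ) : ℝ) * α) =
            ((m * n₁ : ℕ) : ℝ) * α + -(((m * n₂ : ℕ) : ℝ) * α) := by
          push_cast
          ring
        rw [e1, add_e]
        ring
      · rw [if_neg hb, if_neg fun h => hb (h2.1 h).2]
        simp
    · rw [if_neg ha, if_neg fun h => ha (h2.1 h).1]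
      simp
  rw [Complex.ofReal_sum, sum_congr rfl h1, sum_comm]
  refine sum_congr rfl fun n₁ hn₁ => ?_
  rw [sum_comm]
  refine sum_congr rfl fun n₂ _ => ?_
  rw [← sum_filter, mul_sum]
  refine sum_congr ?_ fun _ _ => rfl
  ext m
  have := Nat.div_le_self N (max n₁ n₂)
  simp only [mem_Ioc, mem_filter]
  omega

/-- the weighted geometric sum -/
theorem geo_wt (hG : Geo) (β : ℝ) (N V n : ℕ) :
    ‖∑ m ∈ Ioc V (N / n), ((m : ℝ) : ℂ) * e (m * β)‖ ≤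
      2 * ((N : ℝ) / n * kk ((N : ℝ) / n) β) := by
  have h3 : ((N / n : ℕ) : ℝ) ≤ (N : ℝ) / n := Nat.cast_div_le
  have h := abelC (fun m => e (m * β)) (fun m => (m : ℝ)) Nat.mono_cast (by simp) V (N / n)
    (kk ((N : ℝ) / n) β) fun j hj => hG _ β V j (by
      have h2 : (j : ℝ) ≤ (N / n : ℕ) := by exact_mod_cast hj
      have h4 : (0 : ℝ) ≤ V := Nat.cast_nonneg V
      linarith) (by positivity)
  refine h.trans ?_
  rw [mul_assoc]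
  exact mul_le_mul_of_nonneg_left (mul_le_mul_of_nonneg_right h3
    (kk_nonneg (by positivity) _)) zero_le_two

theorem pair_le (hG : Geo) (α L : ℝ) (N U V : ℕ) (hV : 1 ≤ V) (b : ℕ → ℝ)
    (hb : ∀ n ∈ Icc 1 N, |b n| ≤ L) (hb0 : ∀ n ≤ U, b n = 0) {n₁ n₂ : ℕ} (h₁ : n₁ ∈ Icc 1 N)
    (h₂ : n₂ ∈ Icc 1 N) :
    ‖(b n₁ : ℂ) * b n₂ *
        ∑ m ∈ Ioc V (N / max n₁ n₂), ((m : ℝ) : ℂ) * e (m * ((((n₁ : ℤ) - n₂ : ℤ) : ℝ) * α))‖ ≤
      2 * L ^ 2 * ((if n₁ ∈ Ioc U (N / V) ∧ n₂ ≤ n₁ then Phi α N n₁ n₂ else 0) +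
        if n₂ ∈ Ioc U (N / V) ∧ n₁ ≤ n₂ then Phi α N n₂ n₁ else 0) := by
  have hA : 0 ≤ (if n₁ ∈ Ioc U (N / V) ∧ n₂ ≤ n₁ then Phi α N n₁ n₂ else 0) := by
    split_ifs
    · exact Phi_nonneg _ _ _ _
    · exact le_rfl
  have hB : 0 ≤ (if n₂ ∈ Ioc U (N / V) ∧ n₁ ≤ n₂ then Phi α N n₂ n₁ else 0) := by
    split_ifs
    · exact Phi_nonneg _ _ _ _
    · exact le_rfl
  by_cases hu1 : n₁ ≤ U
  · rw [hb0 n₁ hu1]
    simp only [Complex.ofReal_zero, zero_mul, norm_zero]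
    positivity
  by_cases hu2 : n₂ ≤ U
  · rw [hb0 n₂ hu2]
    simp only [Complex.ofReal_zero, zero_mul, mul_zero, norm_zero]
    positivity
  by_cases hv : N / max n₁ n₂ ≤ V
  · rw [Ioc_eq_empty (by omega)]
    simp only [sum_empty, mul_zero, norm_zero]
    positivity
  have hmax : max n₁ n₂ ≤ N / V := by
    have h5 : V ≤ N / max n₁ n₂ := by omega
    rw [Nat.le_div_iff_mul_le (by omega)] at h5 ⊢
    rwa [mul_comm]
  have hbb : ‖(b n₁ : ℂ) * b n₂‖ ≤ L ^ 2 := by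
    rw [norm_mul, Complex.norm_real, Complex.norm_real, Real.norm_eq_abs, Real.norm_eq_abs, sq]
    exact mul_le_mul (hb _ h₁) (hb _ h₂) (abs_nonneg _) ((abs_nonneg _).trans (hb _ h₁))
  have hg := geo_wt hG ((((n₁ : ℤ) - n₂ : ℤ) : ℝ) * α) N V (max n₁ n₂)
  rw [norm_mul]
  refine (mul_le_mul hbb hg (norm_nonneg _) (sq_nonneg L)).trans ?_
  rw [mul_left_comm, ← mul_assoc]
  refine mul_le_mul_of_nonneg_left ?_ (by positivity)
  rcases le_total n₁ n₂ with h | h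
  · rw [max_eq_right h] at hmax ⊢
    rw [if_pos (show n₂ ∈ Ioc U (N / V) ∧ n₁ ≤ n₂ from ⟨mem_Ioc.2 ⟨by omega, hmax⟩, h⟩)]
    exact le_add_of_nonneg_left hA
  · rw [max_eq_left h] at hmax ⊢
    rw [if_pos (show n₁ ∈ Ioc U (N / V) ∧ n₂ ≤ n₁ from ⟨mem_Ioc.2 ⟨by omega, hmax⟩, h⟩)]
    refine le_trans (le_of_eq ?_) (le_add_of_nonneg_right hB)
    unfold Phi
    rw [← kk_neg]
    congr 2
    push_cast
    ring

theorem tri_sum (α : ℝ) (N U V : ℕ) :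
    ∑ n₁ ∈ Icc 1 N, ∑ n₂ ∈ Icc 1 N,
      (if n₁ ∈ Ioc U (N / V) ∧ n₂ ≤ n₁ then Phi α N n₁ n₂ else 0) =
      ∑ n ∈ Ioc U (N / V), ∑ n' ∈ Icc 1 n, Phi α N n n' := by
  have hsub : Ioc U (N / V) ⊆ Icc 1 N := by
    intro n hn
    have := Nat.div_le_self N V
    rw [mem_Ioc] at hn
    rw [mem_Icc]
    omega
  rw [← sum_subset hsub]
  · refine sum_congr rfl fun n hn => ?_
    have hn' := mem_Icc.1 (hsub hn)
    simp only [hn, true_and]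
    rw [← sum_filter]
    refine sum_congr ?_ fun _ _ => rfl
    ext m
    simp only [mem_Icc, mem_filter]
    omega
  · intro n _ hn
    simp only [hn, false_and, if_false, sum_const_zero]

/-- type II sums -/
theorem typeII (hG : Geo) (α L : ℝ) (N U V : ℕ) (hN : 1 ≤ N) (hV : 1 ≤ V) (a b : ℕ → ℝ)
    (ha : ∀ m, |a m| ≤ 1) (ha0 : ∀ m ≤ V, a m = 0)
    (hb : ∀ n ∈ Icc 1 N, |b n| ≤ L) (hb0 : ∀ n ≤ U, b n = 0) :
    ‖∑ m ∈ Icc 1 N, (a m : ℂ) * ∑ n ∈ Icc 1 (N / m), (b n : ℂ) * e ((m * n : ℕ) * α)‖ ^ 2 ≤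
      (1 + Real.log N) * (4 * L ^ 2 * ∑ n ∈ Ioc U (N / V), ∑ n' ∈ Icc 1 n, Phi α N n n') := by
  obtain ⟨S, hS⟩ : ∃ S : ℕ → ℂ, ∀ m, S m =
      ∑ n ∈ Icc 1 (N / m), (b n : ℂ) * e ((m * n : ℕ) * α) := ⟨_, fun _ => rfl⟩
  have hsub : Ioc V N ⊆ Icc 1 N := by
    intro n hn
    rw [mem_Ioc] at hn
    rw [mem_Icc]
    omega
  have h1 : ‖∑ m ∈ Icc 1 N, (a m : ℂ) * S m‖ ≤ ∑ m ∈ Ioc V N, ‖S m‖ := by
    rw [← sum_subset hsub]
    · refine (norm_sum_le _ _).trans (sum_le_sum fun m _ => ?_)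
      rw [norm_mul, Complex.norm_real, Real.norm_eq_abs]
      exact mul_le_of_le_one_left (norm_nonneg _) (ha m)
    · intro m hm hm2
      rw [mem_Icc] at hm
      rw [mem_Ioc] at hm2
      rw [ha0 m (by omega)]
      simp
  have h2 : (∑ m ∈ Ioc V N, ‖S m‖) ^ 2 ≤
      (∑ m ∈ Ioc V N, 1 / (m : ℝ)) * ∑ m ∈ Ioc V N, (m : ℝ) * ‖S m‖ ^ 2 := by
    refine sum_sq_le_sum_mul_sum_of_sq_le_mul _ (fun m _ => by positivity)
      (fun m _ => by positivity) fun m hm => le_of_eq ?_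
    have : (0 : ℝ) < m := by
      have := (mem_Ioc.1 hm).1
      exact_mod_cast (by omega : 0 < m)
    field_simp
  have h3 : ∑ m ∈ Ioc V N, 1 / (m : ℝ) ≤ 1 + Real.log N :=
    (sum_le_sum_of_subset_of_nonneg hsub fun m _ _ => by positivity).trans
      (Vale.Agent.P013.J.BV.sum_inv_Icc_le N N (by exact_mod_cast hN) le_rfl)
  have h4 : ∑ m ∈ Ioc V N, (m : ℝ) * ‖S m‖ ^ 2 ≤
      4 * L ^ 2 * ∑ n ∈ Ioc U (N / V), ∑ n' ∈ Icc 1 n, Phi α N n n' := by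
    have h5 := congrArg norm (expand α N V b)
    rw [Complex.norm_real, Real.norm_eq_abs] at h5
    simp only [hS]
    refine (le_abs_self _).trans (h5.le.trans ?_)
    refine (norm_sum_le _ _).trans ((sum_le_sum fun n₁ h₁ => (norm_sum_le _ _).trans
      (sum_le_sum fun n₂ h₂ => pair_le hG α L N U V hV b hb hb0 h₁ h₂)).trans (le_of_eq ?_))
    simp only [← mul_sum, sum_add_distrib]
    rw [sum_comm (f := fun n₁ n₂ =>
      if n₂ ∈ Ioc U (N / V) ∧ n₁ ≤ n₂ then Phi α N n₂ n₁ else 0), tri_sum]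
    ring
  simp only [← hS]
  calc _ ≤ (∑ m ∈ Ioc V N, ‖S m‖) ^ 2 := pow_le_pow_left₀ (norm_nonneg _) h1 2
    _ ≤ _ := h2
    _ ≤ _ := mul_le_mul h3 h4 (sum_nonneg fun m _ => by positivity)
        (add_nonneg zero_le_one (Real.log_natCast_nonneg N))

end Vale.Agent.P027P.Mn
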